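import Mathlib

/-!
Basic tools: sets of rationals with finitely many points in each bounded window,
rational functions with values in such a set, functions that are polynomial along lines,
and counting of hyperplanes.
-/

namespace Vale.Agent.Lib.P027

open Filter Polynomial

/-- A set of rationals with finitely many points in every bounded window. -/
def LocFin (J : Set ℚ) : Prop := ∀ R : ℚ, (J ∩ {x | |x| ≤ R}).Finite

theorem LocFin.mono {J J' : Set ℚ} (h : LocFin J) (hs : J' ⊆ J) : LocFin J' :=
  fun R => (h R).subset (Set.inter_subset_inter_left _ hs)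

/-- Simple form: if `c + b * x` lies in `J` for `x` in `J'`, and `b ≠ 0`, then `J'` is locally
finite as soon as `J` is. -/
theorem LocFin.of_affine {J J' : Set ℚ} (h : LocFin J) (c b : ℚ) (hb : b ≠ 0)
    (hs : ∀ x ∈ J', c + b * x ∈ J) : LocFin J' := by
  intro R
  have hinj : Function.Injective (fun x : ℚ => c + b * x) := by
    intro x y hxy
    have : b * x = b * y := by simpa using hxy
    exact mul_left_cancel₀ hb this
  refine ((h (|c| + |b| * |R|)).preimage (f := fun x : ℚ => c + b * x) hinj.injOn).subset ?_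
  rintro x ⟨hx, hxR⟩
  refine ⟨hs x hx, ?_⟩
  have hxR' : |x| ≤ R := hxR
  show |c + b * x| ≤ |c| + |b| * |R|
  calc |c + b * x| ≤ |c| + |b * x| := abs_add_le _ _
    _ = |c| + |b| * |x| := by rw [abs_mul]
    _ ≤ |c| + |b| * |R| := by
        have : |x| ≤ |R| := hxR'.trans (le_abs_self R)
        gcongr

theorem not_locFin_univ : ¬ LocFin (Set.univ : Set ℚ) := by
  intro h
  have h1 := h 1
  have h2 : (Set.Icc (0 : ℚ) 1).Finite := by
    refine h1.subset ?_
    rintro x ⟨hx0, hx1⟩
    refine ⟨trivial, ?_⟩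
    show |x| ≤ 1
    rw [abs_le]
    constructor <;> linarith
  exact (Set.Icc_infinite (by norm_num : (0 : ℚ) < 1)) h2

/-- The set of values on cofinitely many rationals cannot be locally finite. -/
theorem not_locFin_of_cofinite {J : Set ℚ} (B : Set ℚ) (hB : B.Finite) (hs : ∀ x, x ∉ B → x ∈ J) :
    ¬ LocFin J := by
  intro h
  have h1 := h 1
  have h2 : (Set.Icc (0 : ℚ) 1).Finite := by
    refine (h1.union hB).subset ?_
    rintro x ⟨hx0, hx1⟩
    by_cases hxB : x ∈ B
    · exact Or.inr hxB
    · refine Or.inl ⟨hs x hxB, ?_⟩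
      show |x| ≤ 1
      rw [abs_le]
      constructor <;> linarith
  exact (Set.Icc_infinite (by norm_num : (0 : ℚ) < 1)) h2

/-- A rational function with values in a locally finite set is constant. -/
theorem ratfun_const {J : Set ℚ} (hJ : LocFin J) (N M : ℚ[X]) (hM : M ≠ 0)
    (h : ∀ t : ℚ, M.eval t ≠ 0 → N.eval t / M.eval t ∈ J) : ∃ c : ℚ, N = C c * M := by
  classical
  obtain ⟨t₀, ht₀⟩ : ∃ t₀ : ℚ, M.eval t₀ ≠ 0 := by
    by_contra hcon
    push Not at hcon
    exact hM (Polynomial.funext (by simpa using hcon))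
  have hcont : ContinuousAt (fun t : ℚ => N.eval t / M.eval t) t₀ :=
    (N.continuous.continuousAt).div (M.continuous.continuousAt) ht₀
  set c₀ := N.eval t₀ / M.eval t₀ with hc₀
  have hnear : ∀ᶠ t in nhds t₀, |N.eval t / M.eval t - c₀| < 1 := by
    have : Filter.Tendsto (fun t : ℚ => N.eval t / M.eval t) (nhds t₀) (nhds c₀) := hcont
    exact (Metric.tendsto_nhds.1 this 1 one_pos).mono (fun t ht => by
      rw [Rat.dist_eq] at ht
      exact_mod_cast ht)
  have hne : ∀ᶠ t in nhds t₀, M.eval t ≠ 0 :=
    (M.continuous.continuousAt).eventually_ne ht₀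
  have hB := hnear.and hne
  set B : Set ℚ := {t | |N.eval t / M.eval t - c₀| < 1 ∧ M.eval t ≠ 0} with hBdef
  have hBmem : B ∈ nhds t₀ := hB
  have hBinf : B.Infinite := infinite_of_mem_nhds t₀ hBmem
  have hfin := hJ (|c₀| + 1)
  have hmaps : ∀ t ∈ B, N.eval t / M.eval t ∈ J ∩ {x | |x| ≤ |c₀| + 1} := by
    rintro t ⟨ht1, ht2⟩
    refine ⟨h t ht2, ?_⟩
    show |N.eval t / M.eval t| ≤ |c₀| + 1
    have := abs_add_le (N.eval t / M.eval t - c₀) c₀
    have h3 : N.eval t / M.eval t - c₀ + c₀ = N.eval t / M.eval t := by ring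
    rw [h3] at this
    linarith
  obtain ⟨c, _, hc⟩ : ∃ c ∈ J ∩ {x | |x| ≤ |c₀| + 1},
      (B ∩ (fun t => N.eval t / M.eval t) ⁻¹' {c}).Infinite := by
    by_contra hcon
    push Not at hcon
    apply hBinf
    refine (hfin.biUnion hcon).subset ?_
    intro t ht
    simp only [Set.mem_iUnion]
    exact ⟨_, hmaps t ht, ht, rfl⟩
  refine ⟨c, ?_⟩
  have hzero : N - C c * M = 0 := by
    refine Polynomial.eq_zero_of_infinite_isRoot _ (hc.mono ?_)
    rintro t ⟨⟨_, ht2⟩, ht3⟩
    have ht3' : N.eval t / M.eval t = c := ht3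
    have : N.eval t = c * M.eval t := by
      rw [← ht3']; field_simp
    show (N - C c * M).IsRoot t
    simp [Polynomial.IsRoot, this]
  exact sub_eq_zero.1 hzero

section lines

variable {V : Type} [AddCommGroup V] [Module ℚ V]

/-- Functions that are polynomial along every line. -/
def PolyLine (f : V → ℚ) : Prop := ∀ x y : V, ∃ P : ℚ[X], ∀ t : ℚ, f (x + t • y) = P.eval t

theorem PolyLine.mul {f h : V → ℚ} (hf : PolyLine f) (hh : PolyLine h) :
    PolyLine (fun x => f x * h x) := by
  intro x y
  obtain ⟨P, hP⟩ := hf x y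
  obtain ⟨P', hP'⟩ := hh x y
  exact ⟨P * P', fun t => by simp [hP, hP']⟩

theorem PolyLine.add {f h : V → ℚ} (hf : PolyLine f) (hh : PolyLine h) :
    PolyLine (fun x => f x + h x) := by
  intro x y
  obtain ⟨P, hP⟩ := hf x y
  obtain ⟨P', hP'⟩ := hh x y
  exact ⟨P + P', fun t => by simp [hP, hP']⟩

theorem PolyLine.const (c : ℚ) : PolyLine (fun _ : V => c) :=
  fun _ _ => ⟨C c, fun t => by simp⟩

theorem PolyLine.linear (f : V →ₗ[ℚ] ℚ) : PolyLine (fun x => f x) :=
  fun x y => ⟨C (f x) + C (f y) * X, fun t => by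
    simp only [map_add, map_smul, smul_eq_mul, eval_add, eval_mul, eval_C, eval_X]
    ring⟩

/-- A ratio of polynomial-along-lines functions with values in a locally finite set, on a
subspace, is constant where defined. -/
theorem line_const {J : Set ℚ} (hJ : LocFin J) {N M : V → ℚ} (hN : PolyLine N) (hM : PolyLine M)
    {W : Submodule ℚ V} (h : ∀ x ∈ W, M x ≠ 0 → N x / M x ∈ J) {x x' : V} (hx : x ∈ W)
    (hx' : x' ∈ W) (hMx : M x ≠ 0) (hMx' : M x' ≠ 0) : N x / M x = N x' / M x' := by
  obtain ⟨P, hP⟩ := hN x (x' - x)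
  obtain ⟨P', hP'⟩ := hM x (x' - x)
  have hmem : ∀ t : ℚ, x + t • (x' - x) ∈ W := fun t =>
    W.add_mem hx (W.smul_mem t (W.sub_mem hx' hx))
  have h0 : x + (0 : ℚ) • (x' - x) = x := by simp
  have h1 : x + (1 : ℚ) • (x' - x) = x' := by simp
  have hP'ne : P' ≠ 0 := by
    rintro rfl
    have := hP' 0
    rw [h0] at this
    exact hMx (by simpa using this)
  obtain ⟨c, hc⟩ := ratfun_const hJ P P' hP'ne (fun t ht => by
    have := h _ (hmem t) (by rw [hP']; exact ht)
    rwa [hP, hP'] at this)
  have e0 := hP 0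
  have e0' := hP' 0
  have e1 := hP 1
  have e1' := hP' 1
  rw [h0] at e0 e0'
  rw [h1] at e1 e1'
  have v0 : N x = c * M x := by rw [e0, e0', hc]; simp
  have v1 : N x' = c * M x' := by rw [e1, e1', hc]; simp
  rw [v0, v1]
  field_simp

/-- A polynomial-along-lines function vanishing on a dense enough set: if `P(x) = 0` whenever
`M(x) ≠ 0`, on a subspace where `M` does not vanish identically and `M` is nonzero on lines in
direction `d` for a suitable polynomial, then `P` vanishes on the whole subspace. -/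
theorem vanish_of_ne {P M : V → ℚ} (hP : PolyLine P) (hM : PolyLine M) {W : Submodule ℚ V}
    {d : V} (hd : d ∈ W) (hMd : M d ≠ 0) (hMscal : ∀ x ∈ W, ∃ R : ℚ[X], R ≠ 0 ∧
      ∀ t : ℚ, R.eval t ≠ 0 → M (x + t • d) ≠ 0)
    (h : ∀ x ∈ W, M x ≠ 0 → P x = 0) : ∀ x ∈ W, P x = 0 := by
  have _ := hMd
  have _ := hM
  intro x hx
  obtain ⟨R, hR0, hR⟩ := hMscal x hx
  obtain ⟨Q, hQ⟩ := hP x d
  have hQ0 : Q = 0 := by
    apply Polynomial.eq_zero_of_infinite_isRoot
    have hfin : {t : ℚ | R.eval t = 0}.Finite := by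
      have : {t : ℚ | R.eval t = 0} = {t | R.IsRoot t} := rfl
      rw [this]
      exact Polynomial.finite_setOfPred_isRoot hR0
    have hcof : ({t : ℚ | R.eval t = 0}ᶜ).Infinite := hfin.infinite_compl
    refine hcof.mono ?_
    intro t ht
    have h1 : R.eval t ≠ 0 := ht
    have h2 := h _ (W.add_mem hx (W.smul_mem t hd)) (hR t h1)
    show Q.IsRoot t
    rw [Polynomial.IsRoot, ← hQ]
    exact h2
  have := hQ 0
  rw [hQ0] at this
  simpa using this

/-- Counting hyperplanes: a function of degree at most `m` along lines that vanishes on `m + 1`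
distinct affine hyperplanes vanishes identically. -/
theorem count_hyper (m : ℕ) {f : V → ℚ}
    (hf : ∀ x y : V, ∃ P : ℚ[X], P.natDegree ≤ m ∧ ∀ t : ℚ, f (x + t • y) = P.eval t)
    (φ : Fin (m + 1) → V →ₗ[ℚ] ℚ) (b : Fin (m + 1) → ℚ) (hφ : ∀ i, φ i ≠ 0)
    (hdist : ∀ i j, i ≠ j → {x | φ i x = b i} ≠ {x | φ j x = b j})
    (hv : ∀ i x, φ i x = b i → f x = 0) (x : V) : f x = 0 := by
  classical
  by_cases hx : ∃ i, φ i x = b i
  · obtain ⟨i, hi⟩ := hx
    exact hv i x hi
  push Not at hx
  set α : Fin (m + 1) → ℚ := fun i => b i - φ i x with hα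
  have hα0 : ∀ i, α i ≠ 0 := fun i => sub_ne_zero.2 (Ne.symm (hx i))
  -- the functionals whose kernels must be avoided
  let ψ : Fin (m + 1) × Fin (m + 1) → V →ₗ[ℚ] ℚ := fun ij =>
    if ij.1 = ij.2 then φ ij.1 else α ij.1 • φ ij.2 - α ij.2 • φ ij.1
  have hψ : ∀ ij, ψ ij ≠ 0 := by
    rintro ⟨i, j⟩
    by_cases hij : i = j
    · simpa [ψ, hij] using hφ j
    · simp only [ψ, hij, if_false]
      intro h0
      apply hdist i j hij
      have hrel : ∀ z, α i * φ j z = α j * φ i z := by
        intro z
        have := LinearMap.congr_fun h0 z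
        simp only [LinearMap.sub_apply, LinearMap.smul_apply, smul_eq_mul,
          LinearMap.zero_apply] at this
        linarith
      have e1 : α i = b i - φ i x := rfl
      have e2 : α j = b j - φ j x := rfl
      have hbb : b i * φ j x = b j * φ i x := by
        have := hrel x
        rw [e1, e2] at this
        linarith
      ext z
      have hz := hrel z
      constructor
      · intro hzi
        have hzi' : φ i z = b i := hzi
        rw [hzi'] at hz
        show φ j z = b j
        apply mul_left_cancel₀ (hα0 i)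
        rw [hz, e1, e2]
        linear_combination (-1 : ℚ) * hbb
      · intro hzj
        have hzj' : φ j z = b j := hzj
        rw [hzj'] at hz
        show φ i z = b i
        apply mul_left_cancel₀ (hα0 j)
        rw [← hz, e1, e2]
        linear_combination hbb
  let s : Finset (Subspace ℚ V) := Finset.univ.image (fun ij => LinearMap.ker (ψ ij))
  have htop : (⊤ : Subspace ℚ V) ∉ s := by
    intro hmem
    obtain ⟨ij, -, hij⟩ := Finset.mem_image.1 hmem
    exact hψ ij (LinearMap.ker_eq_top.1 hij)
  have hne := Subspace.biUnion_ne_univ_of_top_notMem htop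
  obtain ⟨y, hy⟩ : ∃ y, y ∉ ⋃ p ∈ s, (p : Set V) := by
    by_contra hcon
    push Not at hcon
    exact hne (Set.eq_univ_of_forall hcon)
  have hψy : ∀ ij, ψ ij y ≠ 0 := by
    intro ij h0
    apply hy
    simp only [Set.mem_iUnion]
    exact ⟨_, Finset.mem_image.2 ⟨ij, Finset.mem_univ _, rfl⟩, h0⟩
  have hφy : ∀ i, φ i y ≠ 0 := by
    intro i
    have := hψy (i, i)
    simpa [ψ] using this
  obtain ⟨P, hPdeg, hP⟩ := hf x y
  let τ : Fin (m + 1) → ℚ := fun i => α i / φ i y
  have hτinj : Function.Injective τ := by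
    intro i j hij
    by_contra hne
    have h1 := hψy (i, j)
    simp only [ψ, hne, if_false, LinearMap.sub_apply, LinearMap.smul_apply, smul_eq_mul] at h1
    apply h1
    have hij' : α i / φ i y = α j / φ j y := hij
    have h2 := hφy i
    have h3 := hφy j
    field_simp at hij'
    linarith
  have hroot : ∀ i, P.eval (τ i) = 0 := by
    intro i
    rw [← hP]
    apply hv i
    simp only [map_add, map_smul, smul_eq_mul, τ]
    have := hφy i
    simp only [hα]
    field_simp
    ring
  have hP0 : P = 0 := by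
    apply Polynomial.eq_zero_of_natDegree_lt_card_of_eval_eq_zero P hτinj hroot
    simpa using Nat.lt_succ_of_le hPdeg
  have := hP 0
  simpa [hP0] using this

end lines

section ultra

/-- The ultrafilter used throughout. -/
noncomputable abbrev hF : Ultrafilter ℕ := hyperfilter ℕ

theorem hF_le_cofinite : (hF : Filter ℕ) ≤ cofinite := hyperfilter_le_cofinite

theorem eventually_ne_of_injective {X : Type*} {h : ℕ → X} (hh : Function.Injective h) (a : X) :
    ∀ᶠ k in (hF : Filter ℕ), h k ≠ a := by
  apply hF_le_cofinite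
  rw [Filter.mem_cofinite]
  have hsub : ({k | h k ≠ a} : Set ℕ)ᶜ ⊆ h ⁻¹' {a} := by
    intro k hk
    by_contra hka
    exact hk hka
  exact Set.Finite.subset (Set.Subsingleton.finite (fun x hx y hy => hh (by
    have h1 : h x = a := hx
    have h2 : h y = a := hy
    rw [h1, h2]))) hsub

/-- A function with values in a finite set is eventually constant along the ultrafilter. -/
theorem eventually_const_of_finite {X : Type*} {h : ℕ → X} {s : Set X} (hs : s.Finite)
    (hh : ∀ᶠ k in (hF : Filter ℕ), h k ∈ s) : ∃ a ∈ s, ∀ᶠ k in (hF : Filter ℕ), h k = a := by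
  have h1 : ∀ᶠ k in (hF : Filter ℕ), ∃ a ∈ s, h k = a := hh.mono (fun k hk => ⟨_, hk, rfl⟩)
  exact (Ultrafilter.eventually_exists_mem_iff hs).1 h1

/-- Dichotomy for functions along the ultrafilter: either eventually constant, or `m` distinct
values can be chosen, all of them taken in any prescribed large set. -/
theorem exists_distinct_or_const {X : Type*} (h : ℕ → X) (m : ℕ) {P : ℕ → Prop}
    (hP : ∀ᶠ k in (hF : Filter ℕ), P k) :
    (∃ a, ∀ᶠ k in (hF : Filter ℕ), h k = a) ∨
      ∃ k : Fin m → ℕ, (∀ i, P (k i)) ∧ Function.Injective (fun i => h (k i)) := by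
  classical
  by_cases hc : ∃ a, ∀ᶠ k in (hF : Filter ℕ), h k = a
  · exact Or.inl hc
  right
  have hne : ∀ a, ∀ᶠ k in (hF : Filter ℕ), h k ≠ a := fun a =>
    Ultrafilter.eventually_not.2 (fun ha => hc ⟨a, ha⟩)
  induction m with
  | zero => exact ⟨Fin.elim0, fun i => i.elim0, fun i => i.elim0⟩
  | succ m ih =>
    obtain ⟨k, hkP, hk⟩ := ih
    have hall : ∀ᶠ j in (hF : Filter ℕ), ∀ i, h j ≠ h (k i) :=
      Filter.eventually_all.2 (fun i => hne _)
    obtain ⟨j, hj, hjP⟩ := (hall.and hP).exists
    refine ⟨Fin.snoc k j, ?_, ?_⟩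
    · intro i
      refine Fin.lastCases ?_ (fun i => ?_) i
      · simpa using hjP
      · simpa using hkP i
    · intro a b hab
      induction a using Fin.lastCases with
      | last =>
        induction b using Fin.lastCases with
        | last => rfl
        | cast b =>
          simp only [Fin.snoc_last, Fin.snoc_castSucc] at hab
          exact absurd hab (hj b)
      | cast a =>
        induction b using Fin.lastCases with
        | last =>
          simp only [Fin.snoc_last, Fin.snoc_castSucc] at hab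
          exact absurd hab.symm (hj a)
        | cast b =>
          simp only [Fin.snoc_castSucc] at hab
          rw [hk hab]

end ultra

end Vale.Agent.Lib.P027
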