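import Vale.Agent.Lib.P027.Basic

/-!
Cubic functions on rational vector spaces, in symmetric form, with the expansion along lines.
-/

namespace Vale.Agent.Lib.P027

open Polynomial

/-- A function of degree at most three on a rational vector space, given by symmetric forms. -/
structure Cubic (V : Type) [AddCommGroup V] [Module ℚ V] where
  c0 : ℚ
  L : V →ₗ[ℚ] ℚ
  Q : V →ₗ[ℚ] V →ₗ[ℚ] ℚ
  T : V →ₗ[ℚ] V →ₗ[ℚ] V →ₗ[ℚ] ℚ
  Qs : ∀ x y, Q x y = Q y x
  Ts1 : ∀ x y z, T x y z = T y x z
  Ts2 : ∀ x y z, T x y z = T x z y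

namespace Cubic

variable {V : Type} [AddCommGroup V] [Module ℚ V] (g : Cubic V)

/-- The value of the cubic function. -/
def val (x : V) : ℚ := g.c0 + g.L x + g.Q x x + g.T x x x

/-- The differential at a point. -/
def A (p : V) : V →ₗ[ℚ] ℚ := g.L + (2 : ℚ) • g.Q p + (3 : ℚ) • g.T p p

/-- The second order term at a point, as a symmetric bilinear form. -/
def Bf (p : V) : V →ₗ[ℚ] V →ₗ[ℚ] ℚ := g.Q + (3 : ℚ) • g.T p

/-- The second order term at a point, as a quadratic form. -/
def B (p d : V) : ℚ := g.Bf p d d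

/-- The leading form. -/
def Cf (d : V) : ℚ := g.T d d d

theorem A_apply (p d : V) : g.A p d = g.L d + 2 * g.Q p d + 3 * g.T p p d := by
  simp [A]

theorem Bf_apply (p y z : V) : g.Bf p y z = g.Q y z + 3 * g.T p y z := by
  simp [Bf]

theorem B_eq (p d : V) : g.B p d = g.Q d d + 3 * g.T p d d := by
  simp [B, Bf]

theorem T_swap12 (x y z : V) : g.T y x z = g.T x y z := (g.Ts1 x y z).symm
theorem T_swap23 (x y z : V) : g.T x z y = g.T x y z := (g.Ts2 x y z).symm
theorem T_cycle (x y z : V) : g.T y z x = g.T x y z := by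
  rw [g.Ts1 y z x, g.Ts2 z y x, g.Ts1 z x y, g.Ts2 x z y]
theorem T_cycle' (x y z : V) : g.T z x y = g.T x y z := by
  rw [g.Ts1 z x y, g.Ts2 x z y]

theorem Bf_symm (p y z : V) : g.Bf p y z = g.Bf p z y := by
  rw [Bf_apply, Bf_apply, g.Qs y z, g.Ts2 p y z]

/-- Expansion of the value along a direction. -/
theorem val_add (p d : V) : g.val (p + d) = g.val p + g.A p d + g.B p d + g.Cf d := by
  simp only [val, A_apply, B_eq, Cf, map_add, LinearMap.add_apply]
  rw [g.Qs d p, g.Ts2 d d p, g.Ts1 d p d, g.Ts1 d p p, g.Ts2 p d p]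
  ring

/-- Expansion of the value along a line. -/
theorem val_line (p d : V) (t : ℚ) :
    g.val (p + t • d) = g.val p + t * g.A p d + t ^ 2 * g.B p d + t ^ 3 * g.Cf d := by
  rw [val_add]
  simp only [B_eq, Cf, map_smul, LinearMap.smul_apply, smul_eq_mul]
  ring

theorem A_add (p d y : V) : g.A (p + d) y = g.A p y + 2 * g.Bf p d y + 3 * g.T d d y := by
  simp only [A_apply, Bf_apply, map_add, LinearMap.add_apply]
  rw [g.Ts1 d p y]
  ring

theorem A_line (p d y : V) (t : ℚ) :
    g.A (p + t • d) y = g.A p y + 2 * t * g.Bf p d y + 3 * t ^ 2 * g.T d d y := by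
  rw [A_add]
  simp only [Bf_apply, map_smul, LinearMap.smul_apply, smul_eq_mul]
  ring

theorem B_add_dir (p y z : V) : g.B p (y + z) = g.B p y + 2 * g.Bf p y z + g.B p z := by
  simp only [B, map_add, LinearMap.add_apply]
  rw [g.Bf_symm p z y]
  ring

theorem B_smul_dir (p d : V) (t : ℚ) : g.B p (t • d) = t ^ 2 * g.B p d := by
  simp only [B, map_smul, LinearMap.smul_apply, smul_eq_mul]
  ring

theorem Cf_smul (d : V) (t : ℚ) : g.Cf (t • d) = t ^ 3 * g.Cf d := by
  simp only [Cf, map_smul, LinearMap.smul_apply, smul_eq_mul]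
  ring

theorem Cf_add (y z : V) :
    g.Cf (y + z) = g.Cf y + 3 * g.T y y z + 3 * g.T y z z + g.Cf z := by
  simp only [Cf, map_add, LinearMap.add_apply]
  rw [g.Ts2 z z y, g.Ts1 z y z, g.Ts1 z y y, g.Ts2 y z y]
  ring

theorem Cf_line (y z : V) (t : ℚ) :
    g.Cf (y + t • z) = g.Cf y + t * (3 * g.T y y z) + t ^ 2 * (3 * g.T y z z) + t ^ 3 * g.Cf z := by
  rw [Cf_add]
  simp only [Cf, map_smul, LinearMap.smul_apply, smul_eq_mul]
  ring

theorem B_add_point (p s d : V) : g.B (p + s) d = g.B p d + 3 * g.T s d d := by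
  simp only [B_eq, map_add, LinearMap.add_apply]
  ring

theorem B_eq' (p d : V) : g.B p d = g.Q d d + 3 * g.T d d p := by
  rw [B_eq, g.T_cycle p d d]

theorem B_line_dir (p y z : V) (t : ℚ) :
    g.B p (y + t • z) = g.B p y + t * (2 * g.Bf p y z) + t ^ 2 * g.B p z := by
  rw [B_add_dir, B_smul_dir]
  simp only [map_smul, smul_eq_mul]
  ring

/-- Polynomial of degree at most three along every line. -/
theorem val_poly (x y : V) :
    ∃ P : ℚ[X], P.natDegree ≤ 3 ∧ ∀ t : ℚ, g.val (x + t • y) = P.eval t := by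
  refine ⟨C (g.val x) + C (g.A x y) * X + C (g.B x y) * X ^ 2 + C (g.Cf y) * X ^ 3, ?_, ?_⟩
  · compute_degree
  · intro t
    rw [val_line]
    simp only [eval_add, eval_mul, eval_pow, eval_C, eval_X]
    ring

theorem Cf_poly (x y : V) :
    ∃ P : ℚ[X], P.natDegree ≤ 3 ∧ ∀ t : ℚ, g.Cf (x + t • y) = P.eval t := by
  refine ⟨C (g.Cf x) + C (3 * g.T x x y) * X + C (3 * g.T x y y) * X ^ 2 + C (g.Cf y) * X ^ 3, ?_, ?_⟩
  · compute_degree
  · intro t
    rw [Cf_line]
    simp only [eval_add, eval_mul, eval_pow, eval_C, eval_X]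
    ring

theorem polyLine_val : PolyLine g.val := fun x y => by
  obtain ⟨P, -, hP⟩ := g.val_poly x y
  exact ⟨P, hP⟩

theorem polyLine_Cf : PolyLine g.Cf := fun x y => by
  obtain ⟨P, -, hP⟩ := g.Cf_poly x y
  exact ⟨P, hP⟩

theorem polyLine_B (p : V) : PolyLine (g.B p) := fun x y =>
  ⟨C (g.B p x) + C (2 * g.Bf p x y) * X + C (g.B p y) * X ^ 2, fun t => by
    rw [B_line_dir]
    simp only [eval_add, eval_mul, eval_pow, eval_C, eval_X]
    ring⟩

/-- In the point variable the second order term is affine. -/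
theorem polyLine_B_point (d : V) : PolyLine (fun x => g.B x d) := fun x y =>
  ⟨C (g.B x d) + C (3 * g.T y d d) * X, fun t => by
    show g.B (x + t • y) d = _
    rw [B_add_point]
    simp only [map_smul, LinearMap.smul_apply, smul_eq_mul, eval_add, eval_mul, eval_C, eval_X]
    ring⟩

theorem polyLine_Bf_point (y z : V) : PolyLine (fun x => g.Bf x y z) := fun x d =>
  ⟨C (g.Bf x y z) + C (3 * g.T d y z) * X, fun t => by
    simp only [Bf_apply, map_add, LinearMap.add_apply, map_smul, LinearMap.smul_apply, smul_eq_mul,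
      eval_add, eval_mul, eval_C, eval_X]
    ring⟩

theorem polyLine_A_point (y : V) : PolyLine (fun x => g.A x y) := fun x d =>
  ⟨C (g.A x y) + C (2 * g.Bf x d y) * X + C (3 * g.T d d y) * X ^ 2, fun t => by
    show g.A (x + t • d) y = _
    rw [A_line]
    simp only [eval_add, eval_mul, eval_pow, eval_C, eval_X]
    ring⟩

/-- Restriction of the triple form to a subspace. -/
def restrictT (T : V →ₗ[ℚ] V →ₗ[ℚ] V →ₗ[ℚ] ℚ) (W : Submodule ℚ V) :
    W →ₗ[ℚ] W →ₗ[ℚ] W →ₗ[ℚ] ℚ where
  toFun x := (T x).domRestrict₁₂ W W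
  map_add' x y := by
    ext a b
    simp [LinearMap.domRestrict₁₂_apply]
  map_smul' r x := by
    ext a b
    simp [LinearMap.domRestrict₁₂_apply]

/-- The translated function on a subspace. -/
def shift (x₀ : V) (W : Submodule ℚ V) : Cubic W where
  c0 := g.val x₀
  L := (g.A x₀).domRestrict W
  Q := (g.Bf x₀).domRestrict₁₂ W W
  T := restrictT g.T W
  Qs x y := g.Bf_symm x₀ (x : V) (y : V)
  Ts1 x y z := g.Ts1 (x : V) (y : V) (z : V)
  Ts2 x y z := g.Ts2 (x : V) (y : V) (z : V)

theorem shift_val (x₀ : V) (W : Submodule ℚ V) (y : W) :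
    (g.shift x₀ W).val y = g.val (x₀ + y) := by
  rw [g.val_add]
  rfl

/-- A cubic vanishing along a whole line has vanishing coefficients. -/
theorem coeffs_of_line {p d : V} (h : ∀ t : ℚ, g.val (p + t • d) = 0) :
    g.val p = 0 ∧ g.A p d = 0 ∧ g.B p d = 0 ∧ g.Cf d = 0 := by
  set P : ℚ[X] := C (g.val p) + C (g.A p d) * X + C (g.B p d) * X ^ 2 + C (g.Cf d) * X ^ 3 with hP
  have hroot : ∀ t : ℚ, P.eval t = 0 := by
    intro t
    have := h t
    rw [val_line] at this
    simp only [hP, eval_add, eval_mul, eval_pow, eval_C, eval_X]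
    linarith
  have hP0 : P = 0 := Polynomial.funext (by simpa using hroot)
  have c0 := congrArg (fun q => q.coeff 0) hP0
  have c1 := congrArg (fun q => q.coeff 1) hP0
  have c2 := congrArg (fun q => q.coeff 2) hP0
  have c3 := congrArg (fun q => q.coeff 3) hP0
  simp [hP, coeff_X, coeff_C] at c0 c1 c2 c3
  exact ⟨c0, c1, c2, c3⟩

end Cubic

end Vale.Agent.Lib.P027
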