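import Vale.Agent.Lib.P027.Special

/-!
Derivations on the ultrapower of the rationals, and what they say about the sequence of zeros:
the tangent hyperplanes cannot be fixed, cannot lie in a pencil, and the second fundamental form
cannot vanish.
-/

set_option linter.style.haveILetI false

namespace Vale.Agent.Lib.P027

open Filter

/-- A transcendental element of a field over the rationals is moved by a derivation. -/
theorem exists_derivation (K : Type) [Field K] [Algebra ℚ K] (x : K) (hx : Transcendental ℚ x) :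
    ∃ δ : Derivation ℚ K K, δ x ≠ 0 := by
  classical
  have h1 : AlgebraicIndepOn ℚ id ({x} : Set K) := by
    haveI : Unique ({x} : Set K) := Set.uniqueSingleton x
    have h0 : ((default : ({x} : Set K)) : K) = x := (default : ({x} : Set K)).2
    exact (algebraicIndependent_unique_type_iff).2 (by simpa [h0] using hx)
  obtain ⟨t, hxt, hb⟩ := exists_isTranscendenceBasis_superset h1
  have hxt' : x ∈ t := hxt rfl
  let S := MvPolynomial t ℚ
  letI algSK : Algebra S K := (MvPolynomial.aeval (Subtype.val : t → K)).toRingHom.toAlgebra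
  have halg : ∀ p : S, algebraMap S K p = MvPolynomial.aeval (Subtype.val : t → K) p :=
    fun _ => rfl
  haveI : IsScalarTower ℚ S K := IsScalarTower.of_algebraMap_eq (fun r => by
    rw [halg]; exact ((MvPolynomial.aeval (Subtype.val : t → K)).commutes r).symm)
  have hinj : Function.Injective (algebraMap S K) := hb.1
  haveI : FaithfulSMul S K := (faithfulSMul_iff_algebraMap_injective S K).2 hinj
  letI := FractionRing.liftAlgebra S K
  haveI := FractionRing.isScalarTower_liftAlgebra S K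
  haveI hA0 : Algebra.IsAlgebraic (Algebra.adjoin ℚ (Set.range (Subtype.val : t → K))) K :=
    hb.isAlgebraic
  haveI hA1 : Algebra.IsAlgebraic S K := by
    refine Algebra.IsAlgebraic.of_ringHom_of_comp_eq
      (S := Algebra.adjoin ℚ (Set.range (Subtype.val : t → K))) (B := K)
      (hb.1.aevalEquiv) (RingHom.id K) (EquivLike.surjective _) Function.injective_id ?_
    ext p <;> simp [halg]
  haveI : Algebra.IsAlgebraic (FractionRing S) K :=
    Algebra.IsAlgebraic.extendScalars (R := S) (IsFractionRing.injective S (FractionRing S))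
  haveI : Algebra.IsSeparable (FractionRing S) K :=
    Algebra.IsAlgebraic.isSeparable_of_perfectField
  haveI : Algebra.FormallyEtale (FractionRing S) K := .of_isSeparable _ _
  haveI : Algebra.FormallyEtale S (FractionRing S) := .of_isLocalization (nonZeroDivisors S)
  haveI : Algebra.FormallyEtale S K := .comp S (FractionRing S) K
  have hbc := KaehlerDifferential.isBaseChange_of_formallyEtale ℚ S K
  let b := hbc.basis (KaehlerDifferential.mvPolynomialBasis ℚ t)
  let φ := b.coord ⟨x, hxt'⟩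
  let δ := KaehlerDifferential.linearMapEquivDerivation ℚ K φ
  refine ⟨δ, ?_⟩
  have hD : KaehlerDifferential.D ℚ K x = b ⟨x, hxt'⟩ := by
    have h2 : x = algebraMap S K (MvPolynomial.X ⟨x, hxt'⟩) := by rw [halg]; simp
    rw [IsBaseChange.basis_apply, KaehlerDifferential.mvPolynomialBasis_apply,
      KaehlerDifferential.map_D, ← h2]
  have : δ x = φ (KaehlerDifferential.D ℚ K x) := rfl
  rw [this, hD]
  simp [φ]

/-- The ultrapower field. -/
noncomputable def KK : Type := Filter.Germ (hF : Filter ℕ) ℚ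

noncomputable instance : Field KK := inferInstanceAs (Field (Filter.Germ (hF : Filter ℕ) ℚ))

/-- The class of a sequence. -/
noncomputable def hat (x : ℕ → ℚ) : KK := (x : Filter.Germ (hF : Filter ℕ) ℚ)

/-- The class of a constant sequence, as a ring morphism. -/
noncomputable def cstHom : ℚ →+* KK :=
  (Germ.coeRingHom (hF : Filter ℕ)).comp (Pi.constRingHom ℕ ℚ)

noncomputable instance : Algebra ℚ KK := cstHom.toAlgebra

/-- The class of a constant sequence. -/
noncomputable def cst (r : ℚ) : KK := hat (fun _ => r)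

theorem hat_add (a b : ℕ → ℚ) : hat (fun k => a k + b k) = hat a + hat b := rfl
theorem hat_mul (a b : ℕ → ℚ) : hat (fun k => a k * b k) = hat a * hat b := rfl
theorem hat_sub (a b : ℕ → ℚ) : hat (fun k => a k - b k) = hat a - hat b := rfl
theorem hat_div (a b : ℕ → ℚ) : hat (fun k => a k / b k) = hat a / hat b := rfl
theorem hat_pow (a : ℕ → ℚ) (n : ℕ) : hat (fun k => a k ^ n) = hat a ^ n := rfl
theorem cst_eq (r : ℚ) : cst r = algebraMap ℚ KK r := rfl

theorem cst_two : cst 2 = 2 := by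
  rw [cst_eq]
  exact map_ofNat _ 2

theorem cst_three : cst 3 = 3 := by
  rw [cst_eq]
  exact map_ofNat _ 3

theorem hat_eq {a b : ℕ → ℚ} : hat a = hat b ↔ ∀ᶠ k in (hF : Filter ℕ), a k = b k :=
  Germ.coe_eq

theorem hat_congr {a b : ℕ → ℚ} (h : ∀ᶠ k in (hF : Filter ℕ), a k = b k) : hat a = hat b :=
  hat_eq.2 h

theorem hat_zero : hat (fun _ => 0) = 0 := rfl

theorem hat_ne_zero {a : ℕ → ℚ} (h : ∀ᶠ k in (hF : Filter ℕ), a k ≠ 0) : hat a ≠ 0 := by
  intro h0
  have : hat a = hat (fun _ => 0) := h0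
  have h1 := hat_eq.1 this
  obtain ⟨k, hk1, hk2⟩ := (h.and h1).exists
  exact hk1 hk2

theorem hat_sum {ι : Type*} (s : Finset ι) (f : ι → ℕ → ℚ) :
    hat (fun k => ∑ i ∈ s, f i k) = ∑ i ∈ s, hat (f i) := by
  have h1 : (fun k => ∑ i ∈ s, f i k) = ∑ i ∈ s, f i := by
    ext k
    simp
  rw [h1]
  exact map_sum (Germ.coeRingHom (hF : Filter ℕ)) f s

/-- Values of polynomials commute with the passage to classes. -/
theorem aeval_hat (x : ℕ → ℚ) (P : Polynomial ℚ) :
    Polynomial.aeval (hat x) P = hat (fun k => P.eval (x k)) := by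
  induction P using Polynomial.induction_on' with
  | add P₁ P₂ h₁ h₂ =>
    simp only [map_add, h₁, h₂, Polynomial.eval_add]
    rfl
  | monomial n a =>
    rw [Polynomial.aeval_monomial]
    simp only [Polynomial.eval_monomial]
    rw [hat_mul, hat_pow]
    rfl

/-- A class killed by all derivations is the class of a constant. -/
theorem germ_const (x : ℕ → ℚ) (h : ∀ δ : Derivation ℚ KK KK, δ (hat x) = 0) :
    ∃ r : ℚ, ∀ᶠ k in (hF : Filter ℕ), x k = r := by
  by_cases halg : IsAlgebraic ℚ (hat x)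
  · obtain ⟨P, hP0, hP⟩ := halg
    rw [aeval_hat] at hP
    have h1 : ∀ᶠ k in (hF : Filter ℕ), P.eval (x k) = 0 := hat_eq.1 hP
    have hfin : {t : ℚ | P.IsRoot t}.Finite := Polynomial.finite_setOfPred_isRoot hP0
    obtain ⟨r, -, hr⟩ := eventually_const_of_finite hfin h1
    exact ⟨r, hr⟩
  · obtain ⟨δ, hδ⟩ := exists_derivation KK (hat x) halg
    exact absurd (h δ) hδ

theorem delta_cst (δ : Derivation ℚ KK KK) (r : ℚ) : δ (cst r) = 0 := by
  rw [cst_eq]
  exact δ.map_algebraMap r

theorem delta_cst_mul (δ : Derivation ℚ KK KK) (r : ℚ) (x : KK) : δ (cst r * x) = cst r * δ x := by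
  rw [Derivation.leibniz, delta_cst, smul_eq_mul, smul_zero, add_zero]

variable {V : Type} [AddCommGroup V] [Module ℚ V]

section chain

variable {ι : Type} [Fintype ι] (b : Module.Basis ι ℚ V) (p : ℕ → V)

/-- Class of the values of a linear form along the sequence. -/
noncomputable def hatL (f : V →ₗ[ℚ] ℚ) : KK := hat (fun k => f (p k))

/-- Class of the values of a bilinear form along the sequence. -/
noncomputable def hatB (M : V →ₗ[ℚ] V →ₗ[ℚ] ℚ) : KK := hat (fun k => M (p k) (p k))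

theorem expand_form (f : V →ₗ[ℚ] ℚ) (y : V) : f y = ∑ j, f (b j) * b.coord j y := by
  calc f y = f (∑ j, b.repr y j • b j) := by rw [b.sum_repr]
    _ = ∑ j, f (b j) * b.coord j y := by
      simp only [map_sum, map_smul, smul_eq_mul, Module.Basis.coord_apply]
      exact Finset.sum_congr rfl (fun j _ => mul_comm _ _)

theorem expand_bi (M : V →ₗ[ℚ] V →ₗ[ℚ] ℚ) (y z : V) : M y z = ∑ j, b.coord j y * M (b j) z := by
  calc M y z = M (∑ j, b.repr y j • b j) z := by rw [b.sum_repr]
    _ = ∑ j, b.coord j y * M (b j) z := by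
      simp only [map_sum, map_smul, smul_eq_mul, Module.Basis.coord_apply, LinearMap.sum_apply,
        LinearMap.smul_apply]

theorem expand_tri (N : V →ₗ[ℚ] V →ₗ[ℚ] V →ₗ[ℚ] ℚ) (y z w : V) :
    N y z w = ∑ j, b.coord j y * N (b j) z w := by
  calc N y z w = N (∑ j, b.repr y j • b j) z w := by rw [b.sum_repr]
    _ = ∑ j, b.coord j y * N (b j) z w := by
      simp only [map_sum, map_smul, smul_eq_mul, Module.Basis.coord_apply, LinearMap.sum_apply,
        LinearMap.smul_apply]

theorem hatL_eq (f : V →ₗ[ℚ] ℚ) : hatL p f = ∑ j, cst (f (b j)) * hatL p (b.coord j) := by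
  have h1 : hatL p f = hat (fun k => ∑ j, f (b j) * b.coord j (p k)) := by
    unfold hatL
    congr 1
    ext k
    exact expand_form b f (p k)
  rw [h1, hat_sum]
  rfl

variable (δ : Derivation ℚ KK KK)

/-- The derivative of the `j`-th coordinate along the sequence. -/
noncomputable def tau (j : ι) : KK := δ (hatL p (b.coord j))

theorem delta_hatL (f : V →ₗ[ℚ] ℚ) : δ (hatL p f) = ∑ j, cst (f (b j)) * tau b p δ j := by
  conv_lhs => rw [hatL_eq b p f]
  rw [map_sum]
  simp only [delta_cst_mul]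
  rfl

theorem hatB_eq (M : V →ₗ[ℚ] V →ₗ[ℚ] ℚ) :
    hatB p M = ∑ j, hatL p (b.coord j) * hatL p (M (b j)) := by
  have h1 : hatB p M = hat (fun k => ∑ j, b.coord j (p k) * M (b j) (p k)) := by
    unfold hatB
    congr 1
    ext k
    exact expand_bi b M (p k) (p k)
  rw [h1, hat_sum]
  rfl

theorem delta_hatB (M : V →ₗ[ℚ] V →ₗ[ℚ] ℚ) :
    δ (hatB p M) = ∑ j, tau b p δ j * hatL p (M (b j)) +
      ∑ i, tau b p δ i * hatL p (M.flip (b i)) := by
  rw [hatB_eq b p M, map_sum]
  have h1 : ∀ j, δ (hatL p (b.coord j) * hatL p (M (b j))) =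
      tau b p δ j * hatL p (M (b j)) +
        ∑ i, hatL p (b.coord j) * (cst (M (b j) (b i)) * tau b p δ i) := by
    intro j
    rw [Derivation.leibniz, delta_hatL b p δ (M (b j)), smul_eq_mul, smul_eq_mul, add_comm,
      mul_comm (hatL p (M (b j))), Finset.mul_sum]
    rfl
  simp only [h1, Finset.sum_add_distrib]
  congr 1
  rw [Finset.sum_comm]
  refine Finset.sum_congr rfl (fun i _ => ?_)
  rw [hatL_eq b p (M.flip (b i)), Finset.mul_sum]
  refine Finset.sum_congr rfl (fun j _ => ?_)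
  have : M.flip (b i) (b j) = M (b j) (b i) := rfl
  rw [this]
  ring

/-- Symmetric case. -/
theorem delta_hatB_symm (M : V →ₗ[ℚ] V →ₗ[ℚ] ℚ) (hM : ∀ x y, M x y = M y x) :
    δ (hatB p M) = 2 * ∑ j, tau b p δ j * hatL p (M (b j)) := by
  rw [delta_hatB b p δ M]
  have : ∀ z, M.flip z = M z := fun z => LinearMap.ext (fun y => hM y z)
  simp only [this]
  ring

variable (g : Cubic V)

/-- The class of the value of the differential in a fixed direction. -/
noncomputable def hA (y : V) : KK := hat (fun k => g.A (p k) y)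

/-- The class of the value of the second order term on two fixed directions. -/
noncomputable def hBf (y z : V) : KK := hat (fun k => g.Bf (p k) y z)

theorem hA_eq (y : V) :
    hA p g y = cst (g.L y) + cst 2 * hatL p (g.Q y) + cst 3 * hatB p (g.T y) := by
  have h1 : hA p g y = hat (fun k => g.L y + 2 * g.Q y (p k) + 3 * g.T y (p k) (p k)) := by
    unfold hA
    congr 1
    ext k
    rw [g.A_apply, g.Qs (p k) y, g.T_cycle y (p k) (p k)]
  rw [h1]
  rfl

theorem hBf_eq (y z : V) :
    hBf p g y z = cst (g.Q y z) + cst 3 * hatL p (g.T y z) := by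
  have h1 : hBf p g y z = hat (fun k => g.Q y z + 3 * g.T y z (p k)) := by
    unfold hBf
    congr 1
    ext k
    rw [g.Bf_apply, g.T_cycle (p k) y z]
  rw [h1]
  rfl

/-- Derivative of the differential along the sequence. -/
theorem delta_hA (y : V) : δ (hA p g y) = 2 * ∑ j, tau b p δ j * hBf p g y (b j) := by
  rw [hA_eq, map_add, map_add, delta_cst, zero_add, delta_cst_mul, delta_cst_mul,
    delta_hatB_symm b p δ (g.T y) (fun a c => by rw [g.Ts2 y a c]), delta_hatL b p δ (g.Q y),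
    cst_two, cst_three, Finset.mul_sum, Finset.mul_sum, Finset.mul_sum, Finset.mul_sum,
    ← Finset.sum_add_distrib]
  refine Finset.sum_congr rfl (fun j _ => ?_)
  rw [hBf_eq, cst_three]
  ring

/-- Derivative of the value along the sequence. -/
theorem sum_tau_hA (h : ∀ᶠ k in (hF : Filter ℕ), g.val (p k) = 0) :
    ∑ j, tau b p δ j * hA p g (b j) = 0 := by
  -- the cubic term
  have hT : hat (fun k => g.T (p k) (p k) (p k)) =
      ∑ j, hatL p (b.coord j) * hatB p (g.T (b j)) := by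
    have h1 : hat (fun k => g.T (p k) (p k) (p k)) =
        hat (fun k => ∑ j, b.coord j (p k) * g.T (b j) (p k) (p k)) := by
      congr 1
      ext k
      exact expand_tri b g.T (p k) (p k) (p k)
    rw [h1, hat_sum]
    rfl
  have hflip : ∀ i, ∑ j, hatL p (b.coord j) * hatL p (g.T (b j) (b i)) = hatB p (g.T (b i)) := by
    intro i
    have h1 : hatB p (g.T (b i)) =
        hat (fun k => ∑ j, b.coord j (p k) * g.T (b j) (b i) (p k)) := by
      unfold hatB
      congr 1
      ext k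
      rw [g.Ts1 (b i) (p k) (p k)]
      exact expand_tri b g.T (p k) (b i) (p k)
    rw [h1, hat_sum]
    rfl
  have hδT : δ (hat (fun k => g.T (p k) (p k) (p k))) =
      3 * ∑ j, tau b p δ j * hatB p (g.T (b j)) := by
    rw [hT, map_sum]
    have h2 : ∀ j, δ (hatL p (b.coord j) * hatB p (g.T (b j))) =
        tau b p δ j * hatB p (g.T (b j)) +
          2 * ∑ i, hatL p (b.coord j) * (tau b p δ i * hatL p (g.T (b j) (b i))) := by
      intro j
      rw [Derivation.leibniz, delta_hatB_symm b p δ (g.T (b j)) (fun a c => by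
        rw [g.Ts2 (b j) a c]), smul_eq_mul, smul_eq_mul, add_comm,
        mul_comm (hatB p (g.T (b j)))]
      congr 1
      rw [Finset.mul_sum, Finset.mul_sum, Finset.mul_sum]
      refine Finset.sum_congr rfl (fun i _ => ?_)
      ring
    simp only [h2, Finset.sum_add_distrib, ← Finset.mul_sum]
    have h3 : ∑ j, hatL p (b.coord j) * ∑ i, tau b p δ i * hatL p (g.T (b j) (b i)) =
        ∑ i, tau b p δ i * hatB p (g.T (b i)) := by
      simp only [Finset.mul_sum]
      rw [Finset.sum_comm]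
      refine Finset.sum_congr rfl (fun i _ => ?_)
      rw [← hflip i, Finset.mul_sum]
      refine Finset.sum_congr rfl (fun j _ => ?_)
      ring
    rw [h3]
    ring
  have hval : hat (fun k => g.val (p k)) = 0 := hat_congr h
  have hval2 : hat (fun k => g.val (p k)) = cst g.c0 + hatL p g.L + hatB p g.Q +
      hat (fun k => g.T (p k) (p k) (p k)) := rfl
  have hd := congrArg δ hval
  rw [hval2, map_add, map_add, map_add, delta_cst, map_zero, hδT,
    delta_hatB_symm b p δ g.Q g.Qs, delta_hatL b p δ g.L, zero_add] at hd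
  rw [← hd]
  rw [Finset.mul_sum, Finset.mul_sum, ← Finset.sum_add_distrib, ← Finset.sum_add_distrib]
  refine Finset.sum_congr rfl (fun j _ => ?_)
  rw [hA_eq, cst_two, cst_three]
  ring

end chain

/-! Consequences for the sequence of zeros. -/
section ctx

variable [FiniteDimensional ℚ V] {g : Cubic V} {ℓ : V →ₗ[ℚ] ℚ} {p : ℕ → V}

/-- Tangent hyperplanes cannot be all parallel to a fixed one. -/
theorem Ctx.no_fixed (hc : Ctx g ℓ p) (φ : V →ₗ[ℚ] ℚ) :
    ¬ ∀ᶠ k in (hF : Filter ℕ), ∃ ν : ℚ, ν ≠ 0 ∧ g.A (p k) = ν • φ := by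
  intro hev
  classical
  have hex : ∀ k, ∃ ν : ℚ, (∃ ν' : ℚ, ν' ≠ 0 ∧ g.A (p k) = ν' • φ) → ν ≠ 0 ∧ g.A (p k) = ν • φ := by
    intro k
    by_cases h : ∃ ν' : ℚ, ν' ≠ 0 ∧ g.A (p k) = ν' • φ
    · obtain ⟨ν', h1, h2⟩ := h
      exact ⟨ν', fun _ => ⟨h1, h2⟩⟩
    · exact ⟨1, fun h' => absurd h' h⟩
  choose ν hν using hex
  have hev' : ∀ᶠ k in (hF : Filter ℕ), ν k ≠ 0 ∧ g.A (p k) = ν k • φ := hev.mono (fun k hk => hν k hk)
  have hφ : φ ≠ 0 := by
    rintro rfl
    obtain ⟨k, -, hk⟩ := hev'.exists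
    exact hc.smooth _ (hc.mem k) (by simpa using hk)
  let b := Module.finBasis ℚ V
  have hconst : ∀ δ : Derivation ℚ KK KK, δ (hat (fun k => φ (p k))) = 0 := by
    intro δ
    have h0 := sum_tau_hA b p δ g (Filter.Eventually.of_forall hc.mem)
    have hν0 : hat ν ≠ 0 := hat_ne_zero (hev'.mono (fun k hk => hk.1))
    have hAy : ∀ y, hA p g y = hat ν * cst (φ y) := by
      intro y
      rw [cst, ← hat_mul]
      refine hat_congr (hev'.mono (fun k hk => ?_))
      rw [hk.2]
      rfl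
    have h1 : hat ν * δ (hat (fun k => φ (p k))) = 0 := by
      have h2 : δ (hat (fun k => φ (p k))) = δ (hatL p φ) := rfl
      rw [h2, delta_hatL b p δ φ, Finset.mul_sum, ← h0]
      refine Finset.sum_congr rfl (fun j _ => ?_)
      rw [hAy]
      ring
    exact (mul_eq_zero.1 h1).resolve_left hν0
  obtain ⟨r, hr⟩ := germ_const _ hconst
  exact hc.g1 φ r hφ hr

/-- Tangent hyperplanes cannot all contain a fixed affine subspace of codimension two, with
the pencil parameter given by the point. -/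
theorem Ctx.no_pencil (hc : Ctx g ℓ p) (φ₁ φ₂ : V →ₗ[ℚ] ℚ) (b₁ b₂ : ℚ) :
    ¬ ∀ᶠ k in (hF : Filter ℕ), φ₂ (p k) + b₂ ≠ 0 ∧
      ∃ ν : ℚ, ν ≠ 0 ∧ g.A (p k) = ν • ((φ₂ (p k) + b₂) • φ₁ - (φ₁ (p k) + b₁) • φ₂) := by
  intro hev
  classical
  set a₁ : ℕ → ℚ := fun k => φ₁ (p k) + b₁ with ha₁
  set a₂ : ℕ → ℚ := fun k => φ₂ (p k) + b₂ with ha₂
  have hex : ∀ k, ∃ ν : ℚ, (∃ ν' : ℚ, ν' ≠ 0 ∧ g.A (p k) = ν' • (a₂ k • φ₁ - a₁ k • φ₂)) →
      ν ≠ 0 ∧ g.A (p k) = ν • (a₂ k • φ₁ - a₁ k • φ₂) := by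
    intro k
    by_cases h : ∃ ν' : ℚ, ν' ≠ 0 ∧ g.A (p k) = ν' • (a₂ k • φ₁ - a₁ k • φ₂)
    · obtain ⟨ν', h1, h2⟩ := h
      exact ⟨ν', fun _ => ⟨h1, h2⟩⟩
    · exact ⟨1, fun h' => absurd h' h⟩
  choose ν hν using hex
  have hev' : ∀ᶠ k in (hF : Filter ℕ), a₂ k ≠ 0 ∧ ν k ≠ 0 ∧
      g.A (p k) = ν k • (a₂ k • φ₁ - a₁ k • φ₂) :=
    hev.mono (fun k hk => ⟨hk.1, hν k hk.2⟩)
  let b := Module.finBasis ℚ V
  have hconst : ∀ δ : Derivation ℚ KK KK, δ (hat (fun k => a₁ k / a₂ k)) = 0 := by
    intro δ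
    have h0 := sum_tau_hA b p δ g (Filter.Eventually.of_forall hc.mem)
    have hν0 : hat ν ≠ 0 := hat_ne_zero (hev'.mono (fun k hk => hk.2.1))
    have ha₂0 : hat a₂ ≠ 0 := hat_ne_zero (hev'.mono (fun k hk => hk.1))
    have hAy : ∀ y, hA p g y = hat ν * (hat a₂ * cst (φ₁ y) - hat a₁ * cst (φ₂ y)) := by
      intro y
      rw [cst, cst, ← hat_mul, ← hat_mul, ← hat_sub, ← hat_mul]
      refine hat_congr (hev'.mono (fun k hk => ?_))
      rw [hk.2.2]
      simp only [LinearMap.smul_apply, LinearMap.sub_apply, smul_eq_mul]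
    have hd₁ : δ (hat a₁) = δ (hatL p φ₁) := by
      have : hat a₁ = hatL p φ₁ + cst b₁ := rfl
      rw [this, map_add, delta_cst, add_zero]
    have hd₂ : δ (hat a₂) = δ (hatL p φ₂) := by
      have : hat a₂ = hatL p φ₂ + cst b₂ := rfl
      rw [this, map_add, delta_cst, add_zero]
    have h1 : hat ν * (hat a₂ * δ (hat a₁) - hat a₁ * δ (hat a₂)) = 0 := by
      rw [hd₁, hd₂, delta_hatL b p δ φ₁, delta_hatL b p δ φ₂, Finset.mul_sum, Finset.mul_sum,
        ← Finset.sum_sub_distrib, Finset.mul_sum, ← h0]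
      refine Finset.sum_congr rfl (fun j _ => ?_)
      rw [hAy]
      ring
    have h2 := (mul_eq_zero.1 h1).resolve_left hν0
    rw [hat_div, Derivation.leibniz_div]
    simp only [smul_eq_mul]
    rw [h2, mul_zero]
  obtain ⟨r, hr⟩ := germ_const _ hconst
  have hrel : ∀ᶠ k in (hF : Filter ℕ), (φ₁ - r • φ₂) (p k) = r * b₂ - b₁ := by
    filter_upwards [hr, hev'] with k hk1 hk2
    have h3 : a₁ k = r * a₂ k := by
      rw [← hk1]
      field_simp [hk2.1]
    simp only [ha₁, ha₂] at h3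
    simp only [LinearMap.sub_apply, LinearMap.smul_apply, smul_eq_mul]
    linarith
  by_cases hzero : φ₁ - r • φ₂ = 0
  · have hφ : φ₁ = r • φ₂ := sub_eq_zero.1 hzero
    obtain ⟨k, hk1, hk2⟩ := (hr.and hev').exists
    apply hc.smooth _ (hc.mem k)
    rw [hk2.2.2, hφ]
    have h3 : a₁ k = r * a₂ k := by
      rw [← hk1]
      field_simp [hk2.1]
    rw [h3, smul_smul, mul_comm (a₂ k) r, sub_self, smul_zero]
  · exact hc.g1 _ _ hzero hrel

/-- The second order term cannot vanish on the tangent hyperplanes. -/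
theorem Ctx.no_gauss (hc : Ctx g ℓ p) :
    ¬ ∀ᶠ k in (hF : Filter ℕ), ∀ d, g.A (p k) d = 0 → g.B (p k) d = 0 := by
  intro hG
  classical
  let b := Module.finBasis ℚ V
  obtain ⟨j₀, hj₀⟩ : ∃ j₀, ∀ᶠ k in (hF : Filter ℕ), g.A (p k) (b j₀) ≠ 0 := by
    have h1 : ∀ᶠ k in (hF : Filter ℕ), ∃ j ∈ (Set.univ : Set _), g.A (p k) (b j) ≠ 0 := by
      refine Filter.Eventually.of_forall (fun k => ?_)
      by_contra hcon
      push Not at hcon
      exact hc.smooth _ (hc.mem k) (b.ext (fun j => by simpa using hcon j (Set.mem_univ _)))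
    obtain ⟨j, -, hj⟩ := (Ultrafilter.eventually_exists_mem_iff Set.finite_univ).1 h1
    exact ⟨j, hj⟩
  set y₀ := b j₀ with hy₀
  have hBfzero : ∀ᶠ k in (hF : Filter ℕ), ∀ d d', g.A (p k) d = 0 → g.A (p k) d' = 0 →
      g.Bf (p k) d d' = 0 := by
    refine hG.mono (fun k hk d d' hd hd' => ?_)
    have h1 := g.B_add_dir (p k) d d'
    rw [hk d hd, hk d' hd', hk (d + d') (by rw [map_add, hd, hd', add_zero])] at h1
    linarith
  have hgerm : ∀ y z, hA p g y₀ ^ 2 * hBf p g y z - hA p g y₀ * hA p g z * hBf p g y y₀ -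
      hA p g y * hA p g y₀ * hBf p g y₀ z + hA p g y * hA p g z * hBf p g y₀ y₀ = 0 := by
    intro y z
    have h1 : ∀ᶠ k in (hF : Filter ℕ),
        (g.A (p k) y₀) ^ 2 * g.Bf (p k) y z - g.A (p k) y₀ * g.A (p k) z * g.Bf (p k) y y₀ -
        g.A (p k) y * g.A (p k) y₀ * g.Bf (p k) y₀ z +
        g.A (p k) y * g.A (p k) z * g.Bf (p k) y₀ y₀ = 0 := by
      refine hBfzero.mono (fun k hk => ?_)
      have h2 := hk (g.A (p k) y₀ • y - g.A (p k) y • y₀) (g.A (p k) y₀ • z - g.A (p k) z • y₀)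
        (by simp only [map_sub, map_smul, smul_eq_mul]; ring)
        (by simp only [map_sub, map_smul, smul_eq_mul]; ring)
      simp only [map_sub, map_smul, LinearMap.sub_apply, LinearMap.smul_apply, smul_eq_mul] at h2
      linear_combination h2
    exact hat_congr h1
  have hy₀ne : hA p g y₀ ≠ 0 := hat_ne_zero hj₀
  have hconst : ∀ y, ∀ δ : Derivation ℚ KK KK,
      δ (hat (fun k => g.A (p k) y / g.A (p k) y₀)) = 0 := by
    intro y δ
    have h0 := sum_tau_hA b p δ g (Filter.Eventually.of_forall hc.mem)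
    have h1 := delta_hA b p δ g y
    have h2 := delta_hA b p δ g y₀
    have h3 : ∑ j, tau b p δ j * (hA p g y₀ ^ 2 * hBf p g y (b j) -
        hA p g y₀ * hA p g (b j) * hBf p g y y₀ - hA p g y * hA p g y₀ * hBf p g y₀ (b j) +
        hA p g y * hA p g (b j) * hBf p g y₀ y₀) = 0 := by
      refine Finset.sum_eq_zero (fun j _ => ?_)
      rw [hgerm, mul_zero]
    have h4 : ∑ j, tau b p δ j * (hA p g y₀ ^ 2 * hBf p g y (b j) -
        hA p g y₀ * hA p g (b j) * hBf p g y y₀ - hA p g y * hA p g y₀ * hBf p g y₀ (b j) +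
        hA p g y * hA p g (b j) * hBf p g y₀ y₀) =
        hA p g y₀ ^ 2 * (∑ j, tau b p δ j * hBf p g y (b j)) -
        hA p g y₀ * hBf p g y y₀ * (∑ j, tau b p δ j * hA p g (b j)) -
        hA p g y * hA p g y₀ * (∑ j, tau b p δ j * hBf p g y₀ (b j)) +
        hA p g y * hBf p g y₀ y₀ * (∑ j, tau b p δ j * hA p g (b j)) := by
      simp only [Finset.mul_sum]
      rw [← Finset.sum_sub_distrib, ← Finset.sum_sub_distrib, ← Finset.sum_add_distrib]
      refine Finset.sum_congr rfl (fun j _ => ?_)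
      ring
    rw [h4, h0] at h3
    have h5 : hA p g y₀ * (hA p g y₀ * δ (hA p g y) - hA p g y * δ (hA p g y₀)) = 0 := by
      rw [h1, h2]
      linear_combination 2 * h3
    have h6 := (mul_eq_zero.1 h5).resolve_left hy₀ne
    have h7 : hat (fun k => g.A (p k) y / g.A (p k) y₀) = hA p g y / hA p g y₀ := rfl
    rw [h7, Derivation.leibniz_div]
    simp only [smul_eq_mul]
    rw [h6, mul_zero]
  have hr : ∀ j, ∃ r : ℚ, ∀ᶠ k in (hF : Filter ℕ), g.A (p k) (b j) / g.A (p k) y₀ = r :=
    fun j => germ_const _ (hconst (b j))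
  choose r hr using hr
  let φ : V →ₗ[ℚ] ℚ := b.constr ℚ r
  apply hc.no_fixed φ
  have hall := Filter.eventually_all.2 hr
  filter_upwards [hall, hj₀] with k hk1 hk2
  refine ⟨g.A (p k) y₀, hk2, b.ext (fun j => ?_)⟩
  have h1 := hk1 j
  simp only [LinearMap.smul_apply, smul_eq_mul, φ, Module.Basis.constr_basis]
  rw [← h1]
  field_simp

end ctx

end Vale.Agent.Lib.P027
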