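import Vale.Agent.Lib.P027.Deriv

/-!
Dimension at least three: analysis of the tangent hyperplane sections.
-/

namespace Vale.Agent.Lib.P027

open Filter

variable {V : Type} [AddCommGroup V] [Module ℚ V]

theorem exists_smul_of_ker_le {f h : V →ₗ[ℚ] ℚ} (hh : h ≠ 0) (hker : ∀ x, h x = 0 → f x = 0) :
    ∃ c : ℚ, f = c • h := by
  obtain ⟨z, hz⟩ : ∃ z, h z ≠ 0 := by
    by_contra hcon
    push Not at hcon
    exact hh (LinearMap.ext hcon)
  refine ⟨f z / h z, LinearMap.ext fun x => ?_⟩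
  have h1 : h (x - (h x / h z) • z) = 0 := by
    rw [map_sub, map_smul, smul_eq_mul]
    field_simp
    ring
  have h2 := hker _ h1
  rw [map_sub, map_smul, smul_eq_mul] at h2
  simp only [LinearMap.smul_apply, smul_eq_mul]
  field_simp at h2 ⊢
  linarith

/-- Two nonzero forms with the same kernel are proportional. -/
theorem exists_ne_smul_of_ker_eq {f h : V →ₗ[ℚ] ℚ} (hh : h ≠ 0) (hf : f ≠ 0)
    (hker : LinearMap.ker f = LinearMap.ker h) : ∃ c : ℚ, c ≠ 0 ∧ f = c • h := by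
  obtain ⟨c, hc⟩ := exists_smul_of_ker_le hh (fun x hx => by
    have : x ∈ LinearMap.ker h := hx
    rw [← hker] at this
    exact this)
  refine ⟨c, ?_, hc⟩
  rintro rfl
  apply hf
  rw [hc, zero_smul]

section ctx

set_option linter.unusedSectionVars false

variable [FiniteDimensional ℚ V] {g : Cubic V} {ℓ : V →ₗ[ℚ] ℚ} {p : ℕ → V}

/-- The classification of tangent hyperplane sections. -/
theorem Ctx.tangent_type (hc : Ctx g ℓ p) {x : V} (hx : g.val x = 0) :
    (∀ d, g.A x d = 0 → g.Cf d = 0) ∨ (∀ d, g.A x d = 0 → ℓ d = 0) ∨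
      (∀ d, g.A x d = 0 → g.B x d = 0) ∨
      ∃ κ : ℚ, κ ≠ 0 ∧ (∀ d, g.A x d = 0 → g.B x d * ℓ d = κ * g.Cf d) ∧
        ∃ d, g.A x d = 0 ∧ ℓ d ≠ 0 := by
  by_cases h1 : ∀ d, g.A x d = 0 → g.Cf d = 0
  · exact Or.inl h1
  push Not at h1
  obtain ⟨d₀, hd₀A, hd₀C⟩ := h1
  right
  set T := LinearMap.ker (g.A x) with hT
  have hJ : LocFin {z | ℓ x - z ∈ Lv g ℓ} :=
    hc.loc.of_affine (ℓ x) (-1) (by norm_num) (fun z hz => by
      have : ℓ x + -1 * z = ℓ x - z := by ring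
      rw [this]
      exact hz)
  have hmem : ∀ d ∈ T, g.Cf d ≠ 0 →
      (g.B x d * ℓ d) / g.Cf d ∈ {z | ℓ x - z ∈ Lv g ℓ} := by
    intro d hd hC
    have hd' : g.A x d = 0 := hd
    have h1 : g.val (x + (-(g.B x d / g.Cf d)) • d) = 0 := by
      rw [g.val_line, hx, hd']
      field_simp
      ring
    have h2 := mem_Lv (ℓ := ℓ) h1
    have h3 : ℓ (x + (-(g.B x d / g.Cf d)) • d) = ℓ x - (g.B x d * ℓ d) / g.Cf d := by
      simp only [map_add, map_smul, smul_eq_mul]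
      field_simp
      ring
    show ℓ x - (g.B x d * ℓ d) / g.Cf d ∈ Lv g ℓ
    rwa [h3] at h2
  set κ := (g.B x d₀ * ℓ d₀) / g.Cf d₀ with hκ
  have hd₀T : d₀ ∈ T := hd₀A
  have hconst : ∀ d ∈ T, g.Cf d ≠ 0 → g.B x d * ℓ d - κ * g.Cf d = 0 := by
    intro d hd hC
    have := line_const hJ ((g.polyLine_B x).mul (PolyLine.linear ℓ)) g.polyLine_Cf hmem
      hd hd₀T hC hd₀C
    rw [← hκ] at this
    rw [← this]
    field_simp
    ring
  have hP : PolyLine (fun d => g.B x d * ℓ d - κ * g.Cf d) := by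
    have h1 := ((g.polyLine_B x).mul (PolyLine.linear ℓ)).add
      ((PolyLine.const (-κ)).mul g.polyLine_Cf)
    convert h1 using 2
    ring
  have hall : ∀ d ∈ T, g.B x d * ℓ d - κ * g.Cf d = 0 := by
    refine vanish_of_ne hP g.polyLine_Cf hd₀T hd₀C (fun y _ => ?_) hconst
    obtain ⟨R, hR⟩ := g.polyLine_Cf y d₀
    obtain ⟨R', hdeg, hR'⟩ := g.Cf_poly y d₀
    have hR'ne : R' ≠ 0 := by
      intro h0
      have hc3 : ∀ t : ℚ, g.Cf (y + t • d₀) = 0 := fun t => by rw [hR', h0]; simp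
      have h2 : ∀ t : ℚ, g.Cf y + t * (3 * g.T y y d₀) + t ^ 2 * (3 * g.T y d₀ d₀) +
          t ^ 3 * g.Cf d₀ = 0 := fun t => by
        rw [← g.Cf_line]
        exact hc3 t
      -- evaluate at four points to isolate the leading coefficient
      have e0 := h2 0
      have e1 := h2 1
      have e2 := h2 (-1)
      have e3 := h2 2
      apply hd₀C
      norm_num at e0 e1 e2 e3
      linarith
    exact ⟨R', hR'ne, fun t ht => by rw [hR']; exact ht⟩
  by_cases hκ0 : κ = 0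
  · by_cases h2 : ∀ d, g.A x d = 0 → ℓ d = 0
    · exact Or.inl h2
    · right
      left
      push Not at h2
      obtain ⟨d₁, hd₁A, hd₁⟩ := h2
      have hd₁T : d₁ ∈ T := hd₁A
      intro d hd
      refine vanish_of_ne (P := g.B x) (M := fun y => ℓ y) (g.polyLine_B x) (PolyLine.linear ℓ)
        hd₁T hd₁ (fun y _ => ?_) (fun y hy hl => ?_) d hd
      · refine ⟨Polynomial.C (ℓ y) + Polynomial.C (ℓ d₁) * Polynomial.X, ?_, fun t ht => ?_⟩
        · intro h0
          have h3 := congrArg (fun q => q.coeff 1) h0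
          simp at h3
          exact hd₁ h3
        · simp only [map_add, map_smul, smul_eq_mul]
          simp only [Polynomial.eval_add, Polynomial.eval_mul, Polynomial.eval_C,
            Polynomial.eval_X] at ht
          rwa [mul_comm t]
      · have h3 := hall y hy
        rw [hκ0, zero_mul, sub_zero] at h3
        exact (mul_eq_zero.1 h3).resolve_right hl
  · right
    right
    refine ⟨κ, hκ0, fun d hd => ?_, d₀, hd₀A, ?_⟩
    · have := hall d hd
      linarith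
    · intro h0
      apply hκ0
      rw [hκ, h0, mul_zero, zero_div]

theorem Ctx.no_type1 (hc : Ctx g ℓ p) :
    ¬ ∀ᶠ k in (hF : Filter ℕ), ∀ d, g.A (p k) d = 0 → g.Cf d = 0 := by
  intro hev
  rcases exists_distinct_or_const (fun k => LinearMap.ker (g.A (p k))) 4 hev with
    ⟨a, ha⟩ | ⟨k, hkP, hk⟩
  · obtain ⟨k₀, hk₀⟩ := ha.exists
    apply hc.no_fixed (g.A (p k₀))
    refine ha.mono (fun k hk => ?_)
    obtain ⟨c, hc0, hc1⟩ := exists_ne_smul_of_ker_eq (hc.smooth _ (hc.mem k₀))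
      (hc.smooth _ (hc.mem k)) (hk.trans hk₀.symm)
    exact ⟨c, hc0, hc1⟩
  · obtain ⟨d, hd⟩ := hc.Cne
    apply hd
    refine count_hyper 3 g.Cf_poly (fun i => g.A (p (k i))) (fun _ => 0)
      (fun i => hc.smooth _ (hc.mem _)) ?_ ?_ d
    · intro i j hij hset
      apply hij
      apply hk
      ext x
      exact Set.ext_iff.1 hset x
    · intro i x hx
      exact hkP i x hx

theorem Ctx.no_type2 (hc : Ctx g ℓ p) :
    ¬ ∀ᶠ k in (hF : Filter ℕ), ∀ d, g.A (p k) d = 0 → ℓ d = 0 := by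
  intro hev
  apply hc.no_fixed ℓ
  refine hev.mono (fun k hk => ?_)
  obtain ⟨c, hc1⟩ := exists_smul_of_ker_le (hc.smooth _ (hc.mem k)) hk
  have hc0 : c ≠ 0 := by
    rintro rfl
    exact hc.ne (by rw [hc1, zero_smul])
  exact ⟨c⁻¹, inv_ne_zero hc0, by rw [hc1, smul_smul, inv_mul_cancel₀ hc0, one_smul]⟩

/-- A point whose tangent section contains a level hyperplane of the tangent hyperplane. -/
structure Good (g : Cubic V) (ℓ : V →ₗ[ℚ] ℚ) (x : V) (κ : ℚ) : Prop where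
  hx : g.val x = 0
  hκ : κ ≠ 0
  rel : ∀ d, g.A x d = 0 → g.B x d * ℓ d = κ * g.Cf d
  ex : ∃ d, g.A x d = 0 ∧ ℓ d ≠ 0

/-- The linear subspace of zeros attached to a good point. -/
def Lset (g : Cubic V) (ℓ : V →ₗ[ℚ] ℚ) (x : V) (κ : ℚ) : Set V :=
  {y | g.A x (y - x) = 0 ∧ ℓ y = ℓ x - κ}

theorem Good.zero {x : V} {κ : ℚ} (h : Good g ℓ x κ) {y : V} (hy : y ∈ Lset g ℓ x κ) :
    g.val y = 0 := by
  obtain ⟨h1, h2⟩ := hy
  have hd : ℓ (y - x) = - κ := by
    rw [map_sub, h2]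
    ring
  have h3 := h.rel _ h1
  rw [hd] at h3
  have h4 : g.Cf (y - x) = - g.B x (y - x) := by
    apply mul_left_cancel₀ h.hκ
    linear_combination (-1 : ℚ) * h3
  have h5 := g.val_add x (y - x)
  rw [add_sub_cancel] at h5
  rw [h5, h.hx, h1, h4]
  ring

theorem Good.Cf_zero {x : V} {κ : ℚ} (h : Good g ℓ x κ) {s : V} (hs : g.A x s = 0)
    (hl : ℓ s = 0) : g.Cf s = 0 := by
  have h3 := h.rel _ hs
  rw [hl, mul_zero] at h3
  exact (mul_eq_zero.1 h3.symm).resolve_left h.hκ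

theorem Good.exists_mem {x : V} {κ : ℚ} (h : Good g ℓ x κ) : ∃ u, u ∈ Lset g ℓ x κ := by
  obtain ⟨d, hd, hl⟩ := h.ex
  refine ⟨x + (-κ / ℓ d) • d, ?_, ?_⟩
  · rw [add_sub_cancel_left, map_smul, hd, smul_zero]
  · simp only [map_add, map_smul, smul_eq_mul]
    field_simp
    ring

theorem Good.add_mem {x : V} {κ : ℚ} {y s : V} (hy : y ∈ Lset g ℓ x κ)
    (hs : g.A x s = 0) (hl : ℓ s = 0) (t : ℚ) : y + t • s ∈ Lset g ℓ x κ := by
  obtain ⟨h1, h2⟩ := hy
  refine ⟨?_, ?_⟩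
  · have : y + t • s - x = (y - x) + t • s := by abel
    rw [this, map_add, h1, map_smul, hs, smul_zero, add_zero]
  · rw [map_add, map_smul, hl, smul_zero, add_zero, h2]

theorem Good.line {x : V} {κ : ℚ} (h : Good g ℓ x κ) {y s : V} (hy : y ∈ Lset g ℓ x κ)
    (hs : g.A x s = 0) (hl : ℓ s = 0) :
    g.val y = 0 ∧ g.A y s = 0 ∧ g.B y s = 0 ∧ g.Cf s = 0 :=
  g.coeffs_of_line (fun t => h.zero (Good.add_mem hy hs hl t))

theorem Good.restrict_ne {x : V} {κ : ℚ} (h : Good g ℓ x κ) (hA : g.A x ≠ 0) :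
    ∃ z, ℓ z = 0 ∧ g.A x z ≠ 0 := by
  by_contra hcon
  push Not at hcon
  obtain ⟨d, hd, hl⟩ := h.ex
  apply hA
  refine LinearMap.ext (fun y => ?_)
  have h1 : ℓ (y - (ℓ y / ℓ d) • d) = 0 := by
    rw [map_sub, map_smul, smul_eq_mul]
    field_simp
    ring
  have h2 := hcon _ h1
  rw [map_sub, map_smul, hd, smul_zero, sub_zero] at h2
  simpa using h2

/-- The subspace of zeros cannot be fixed along the sequence. -/
theorem Ctx.no_fixed_L (hc : Ctx g ℓ p) {κ : ℕ → ℚ}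
    (hgood : ∀ᶠ k in (hF : Filter ℕ), Good g ℓ (p k) (κ k)) {L₀ : Set V}
    (hL₀ : ∀ᶠ k in (hF : Filter ℕ), Lset g ℓ (p k) (κ k) = L₀) : False := by
  obtain ⟨k₀, hk₀g, hk₀L⟩ := (hgood.and hL₀).exists
  obtain ⟨u, hu⟩ := hk₀g.exists_mem
  rw [hk₀L] at hu
  set φ := g.A (p k₀) with hφ
  have hφ0 : φ ≠ 0 := hc.smooth _ (hc.mem k₀)
  apply hc.no_pencil φ ℓ (- φ u) (- ℓ u)
  filter_upwards [hgood, hL₀] with k hk1 hk2
  have huk : u ∈ Lset g ℓ (p k) (κ k) := by rw [hk2]; exact hu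
  have huk0 : u ∈ Lset g ℓ (p k₀) (κ k₀) := by rw [hk₀L]; exact hu
  have ha₂ : ℓ (p k) + - ℓ u = κ k := by
    rw [huk.2]
    ring
  refine ⟨by rw [ha₂]; exact hk1.hκ, ?_⟩
  set a₂ := ℓ (p k) + - ℓ u with ha₂def
  set a₁ := φ (p k) + - φ u with ha₁def
  set Λ : V →ₗ[ℚ] ℚ := a₂ • φ - a₁ • ℓ with hΛ
  have hΛapply : ∀ z, Λ z = a₂ * φ z - a₁ * ℓ z := fun z => by
    simp [hΛ]
  have hker : ∀ x, g.A (p k) x = 0 → Λ x = 0 := by
    intro x hx
    set y := u - p k with hy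
    have hyA : g.A (p k) y = 0 := huk.1
    have hyl : ℓ y = - a₂ := by
      rw [hy, map_sub, ha₂def]
      ring
    have hyl0 : ℓ y ≠ 0 := by
      rw [hyl, ha₂]
      exact neg_ne_zero.2 hk1.hκ
    set s := x - (ℓ x / ℓ y) • y with hs
    have hsA : g.A (p k) s = 0 := by
      rw [hs, map_sub, map_smul, hx, hyA, smul_zero, sub_zero]
    have hsl : ℓ s = 0 := by
      rw [hs, map_sub, map_smul, smul_eq_mul]
      field_simp
      ring
    have h1 : u + (1 : ℚ) • s ∈ Lset g ℓ (p k) (κ k) := Good.add_mem huk hsA hsl 1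
    rw [hk2, ← hk₀L] at h1
    have hφs : φ s = 0 := by
      have h2 := h1.1
      have h3 : u + (1 : ℚ) • s - p k₀ = (u - p k₀) + s := by
        rw [one_smul]
        abel
      rw [h3, map_add, huk0.1, zero_add] at h2
      exact h2
    have hφy : φ y = - a₁ := by
      rw [hy, map_sub, ha₁def]
      ring
    have hx' : x = s + (ℓ x / ℓ y) • y := by
      rw [hs]
      abel
    rw [hx', hΛapply]
    simp only [map_add, map_smul, smul_eq_mul]
    rw [hφs, hsl, hφy, hyl]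
    ring
  obtain ⟨c, hc1⟩ := exists_smul_of_ker_le (hc.smooth _ (hc.mem k)) hker
  have hc0 : c ≠ 0 := by
    rintro rfl
    rw [zero_smul] at hc1
    obtain ⟨d, hd, hl⟩ := hk₀g.ex
    have h1 := hΛapply d
    rw [hc1] at h1
    have hd' : φ d = 0 := hd
    rw [hd'] at h1
    simp only [LinearMap.zero_apply, mul_zero, zero_sub] at h1
    have ha₁0 : a₁ = 0 := by
      have : a₁ * ℓ d = 0 := by linarith
      exact (mul_eq_zero.1 this).resolve_right hl
    apply hφ0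
    refine LinearMap.ext (fun z => ?_)
    have h2 := hΛapply z
    rw [hc1, ha₁0] at h2
    simp only [LinearMap.zero_apply, zero_mul, sub_zero] at h2
    have h3 : a₂ ≠ 0 := by
      rw [ha₂]
      exact hk1.hκ
    exact (mul_eq_zero.1 h2.symm).resolve_left h3
  refine ⟨c⁻¹, inv_ne_zero hc0, ?_⟩
  rw [hc1, smul_smul, inv_mul_cancel₀ hc0, one_smul]

/-- Constant level of the subspaces of zeros is impossible. -/
theorem Ctx.no_caseX (hc : Ctx g ℓ p) {κ : ℕ → ℚ}
    (hgood : ∀ᶠ k in (hF : Filter ℕ), Good g ℓ (p k) (κ k)) {c₀ : ℚ}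
    (hc₀ : ∀ᶠ k in (hF : Filter ℕ), ℓ (p k) - κ k = c₀) : False := by
  rcases exists_distinct_or_const (fun k => Lset g ℓ (p k) (κ k)) 4 (hgood.and hc₀) with
    ⟨L₀, hL₀⟩ | ⟨k, hkP, hk⟩
  · exact hc.no_fixed_L hgood hL₀
  obtain ⟨x₀, hx₀⟩ := (hkP 0).1.exists_mem
  have hx₀l : ℓ x₀ = c₀ := by
    rw [hx₀.2]
    exact (hkP 0).2
  let K := LinearMap.ker ℓ
  have hmemK : ∀ z, ℓ z = c₀ → z - x₀ ∈ K := by
    intro z hz
    show ℓ (z - x₀) = 0
    rw [map_sub, hz, hx₀l, sub_self]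
  have hiff : ∀ i z (hz : ℓ z = c₀), z ∈ Lset g ℓ (p (k i)) (κ (k i)) ↔
      (g.A (p (k i))).domRestrict K ⟨z - x₀, hmemK z hz⟩ = g.A (p (k i)) (p (k i) - x₀) := by
    intro i z hz
    have hlev : ℓ z = ℓ (p (k i)) - κ (k i) := by rw [hz]; exact (hkP i).2.symm
    simp only [LinearMap.domRestrict_apply]
    constructor
    · intro h
      have h1 := h.1
      simp only [map_sub] at h1 ⊢
      linarith
    · intro h
      refine ⟨?_, hlev⟩
      simp only [map_sub] at h ⊢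
      linarith
  apply hc.noH c₀
  intro x hx
  have hcount := count_hyper 3 ((g.shift x₀ K).val_poly)
    (fun i => (g.A (p (k i))).domRestrict K) (fun i => g.A (p (k i)) (p (k i) - x₀)) ?_ ?_ ?_
    ⟨x - x₀, hmemK x hx⟩
  · rw [g.shift_val] at hcount
    simpa using hcount
  · intro i h0
    obtain ⟨z, hz, hA⟩ := (hkP i).1.restrict_ne (hc.smooth _ (hc.mem _))
    apply hA
    have := LinearMap.congr_fun h0 ⟨z, hz⟩
    simpa [LinearMap.domRestrict_apply] using this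
  · intro i j hij hset
    apply hij
    apply hk
    ext z
    constructor
    · intro hz
      have hzl : ℓ z = c₀ := by
        rw [hz.2]
        exact (hkP i).2
      have h1 := (hiff i z hzl).1 hz
      have h2 := Set.ext_iff.1 hset ⟨z - x₀, hmemK z hzl⟩
      exact (hiff j z hzl).2 (h2.1 h1)
    · intro hz
      have hzl : ℓ z = c₀ := by
        rw [hz.2]
        exact (hkP j).2
      have h1 := (hiff j z hzl).1 hz
      have h2 := Set.ext_iff.1 hset ⟨z - x₀, hmemK z hzl⟩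
      exact (hiff i z hzl).2 (h2.2 h1)
  · intro i y hy
    rw [g.shift_val]
    have hyl : ℓ (y : V) = 0 := y.2
    have hl : ℓ (x₀ + y) = c₀ := by
      rw [map_add, hyl, add_zero, hx₀l]
    refine (hkP i).1.zero ((hiff i _ hl).2 ?_)
    convert hy using 2
    simp

end ctx

end Vale.Agent.Lib.P027
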