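import Vale.Agent.Lib.P027.High

/-!
Dimension at least three: the levels of the subspaces of zeros vary.
-/

namespace Vale.Agent.Lib.P027

open Filter Module

variable {V : Type} [AddCommGroup V] [Module ℚ V]

set_option linter.unusedSectionVars false

variable [FiniteDimensional ℚ V] {g : Cubic V} {ℓ : V →ₗ[ℚ] ℚ} {p : ℕ → V}

/-- Two forms have a common nonzero kernel vector in dimension at least three. -/
theorem exists_common_zero2 (hn : 3 ≤ finrank ℚ V) (φ₁ φ₂ : V →ₗ[ℚ] ℚ) :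
    ∃ w : V, w ≠ 0 ∧ φ₁ w = 0 ∧ φ₂ w = 0 := by
  let F : V →ₗ[ℚ] (ℚ × ℚ) := LinearMap.prod φ₁ φ₂
  have hlt : finrank ℚ (ℚ × ℚ) < finrank ℚ V := by
    have : finrank ℚ (ℚ × ℚ) = 2 := by simp
    omega
  have hker := LinearMap.ker_ne_bot_of_finrank_lt hlt (f := F)
  obtain ⟨w, hw, hw0⟩ := (Submodule.ne_bot_iff _).1 hker
  have h1 : F w = 0 := hw
  have h2 : φ₁ w = 0 := congrArg Prod.fst h1
  have h3 : φ₂ w = 0 := congrArg Prod.snd h1
  exact ⟨w, hw0, h2, h3⟩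

/-- Three forms have a common nonzero kernel vector in dimension at least four. -/
theorem exists_common_zero3 (hn : 4 ≤ finrank ℚ V) (φ₁ φ₂ φ₃ : V →ₗ[ℚ] ℚ) :
    ∃ w : V, w ≠ 0 ∧ φ₁ w = 0 ∧ φ₂ w = 0 ∧ φ₃ w = 0 := by
  let F : V →ₗ[ℚ] (ℚ × ℚ × ℚ) := LinearMap.prod φ₁ (LinearMap.prod φ₂ φ₃)
  have hlt : finrank ℚ (ℚ × ℚ × ℚ) < finrank ℚ V := by
    have : finrank ℚ (ℚ × ℚ × ℚ) = 3 := by simp
    omega
  have hker := LinearMap.ker_ne_bot_of_finrank_lt hlt (f := F)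
  obtain ⟨w, hw, hw0⟩ := (Submodule.ne_bot_iff _).1 hker
  have h1 : F w = 0 := hw
  have h2 : φ₁ w = 0 := congrArg Prod.fst h1
  have h3 : φ₂ w = 0 := congrArg (fun z => z.2.1) h1
  have h4 : φ₃ w = 0 := congrArg (fun z => z.2.2) h1
  exact ⟨w, hw0, h2, h3, h4⟩

/-- If the leading form does not vanish on the level hyperplane through the origin, then varying
levels are impossible. -/
theorem Ctx.no_caseYa (hc : Ctx g ℓ p) (hn : 3 ≤ finrank ℚ V) {κ : ℕ → ℚ}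
    (hgood : ∀ᶠ k in (hF : Filter ℕ), Good g ℓ (p k) (κ k))
    (hne : ∀ c : ℚ, ¬ ∀ᶠ k in (hF : Filter ℕ), ℓ (p k) - κ k = c) {s₀ : V} (hs₀ : ℓ s₀ = 0)
    (hCs₀ : g.Cf s₀ ≠ 0) : False := by
  let K := LinearMap.ker ℓ
  let U : ℕ → Submodule ℚ V := fun k => LinearMap.ker (g.A (p k)) ⊓ K
  have hUmem : ∀ k s, s ∈ U k ↔ g.A (p k) s = 0 ∧ ℓ s = 0 := fun k s => Iff.rfl
  rcases exists_distinct_or_const U 4 hgood with ⟨U₀, hU₀⟩ | ⟨k, hkP, hk⟩
  · -- the directions are fixed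
    obtain ⟨k₀, hk₀g, hk₀U⟩ := (hgood.and hU₀).exists
    obtain ⟨w, hw0, hwA, hwl⟩ := exists_common_zero2 hn (g.A (p k₀)) ℓ
    have hwU : ∀ k, U k = U₀ → g.A (p k) w = 0 := by
      intro k hk
      have h1 : w ∈ U k₀ := (hUmem _ _).2 ⟨hwA, hwl⟩
      rw [hk₀U, ← hk] at h1
      exact ((hUmem _ _).1 h1).1
    have hCw : g.Cf w = 0 := hk₀g.Cf_zero hwA hwl
    set φ := g.T w w with hφ
    have hBeq : ∀ x, g.B x w = g.Q w w + 3 * φ x := fun x => g.B_eq' x w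
    have hφ0 : φ ≠ 0 := by
      intro h0
      obtain ⟨u, hu⟩ := hk₀g.exists_mem
      have h1 := (hk₀g.line hu hwA hwl).2.2.1
      rw [hBeq, h0] at h1
      simp only [LinearMap.zero_apply, mul_zero, add_zero] at h1
      apply hc.noW w hw0 hwl hCw
      intro x
      rw [hBeq, h0, h1]
      simp
    -- four distinct levels
    rcases exists_distinct_or_const (fun k => ℓ (p k) - κ k) 4 (hgood.and hU₀) with
      ⟨a, ha⟩ | ⟨k, hkP, hk⟩
    · exact hne a ha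
    have hgoodk : ∀ i, Good g ℓ (p (k i)) (κ (k i)) := fun i => (hkP i).1
    have hUk : ∀ i, g.A (p (k i)) w = 0 := fun i => hwU _ (hkP i).2
    have hexu : ∀ i, ∃ u, u ∈ Lset g ℓ (p (k i)) (κ (k i)) := fun i => (hgoodk i).exists_mem
    choose u hu using hexu
    have hφu : ∀ i, g.Q w w + 3 * φ (u i) = 0 := by
      intro i
      have h1 := ((hgoodk i).line (hu i) (hUk i) hwl).2.2.1
      rwa [hBeq] at h1
    let W := LinearMap.ker φ
    have hy₀ : ℓ (u 0 - u 1) ≠ 0 := by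
      rw [map_sub, (hu 0).2, (hu 1).2]
      intro h0
      have := hk (show (fun i => ℓ (p (k i)) - κ (k i)) 0 = (fun i => ℓ (p (k i)) - κ (k i)) 1 from
        sub_eq_zero.1 h0)
      exact absurd this (by decide)
    have hy₀W : u 0 - u 1 ∈ W := by
      show φ (u 0 - u 1) = 0
      rw [map_sub]
      have h0 := hφu 0
      have h1 := hφu 1
      linarith
    set y₀ := u 0 - u 1 with hy₀def
    have hφK : ∃ z, ℓ z = 0 ∧ φ z ≠ 0 := by
      by_contra hcon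
      push Not at hcon
      apply hφ0
      refine LinearMap.ext (fun v => ?_)
      have h1 : ℓ (v - (ℓ v / ℓ y₀) • y₀) = 0 := by
        rw [map_sub, map_smul, smul_eq_mul]
        field_simp
        ring
      have h2 := hcon _ h1
      have h3 : φ y₀ = 0 := hy₀W
      rw [map_sub, map_smul, h3, smul_zero, sub_zero] at h2
      simpa using h2
    -- points of the hyperplane at the right level are in the subspace of zeros
    have hclaim : ∀ i, ∀ x, φ x = φ (u i) → ℓ x = ℓ (p (k i)) - κ (k i) →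
        x ∈ Lset g ℓ (p (k i)) (κ (k i)) := by
      intro i x hx1 hx2
      refine ⟨?_, hx2⟩
      set z := x - u i with hz
      have hzl : ℓ z = 0 := by
        rw [hz, map_sub, hx2, (hu i).2, sub_self]
      have hzφ : φ z = 0 := by
        rw [hz, map_sub, hx1, sub_self]
      -- the restriction of the form to the level hyperplane is proportional
      let A' : K →ₗ[ℚ] ℚ := (g.A (p (k i))).domRestrict K
      let φ' : K →ₗ[ℚ] ℚ := φ.domRestrict K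
      have hA' : A' ≠ 0 := by
        obtain ⟨t, ht, hA⟩ := (hgoodk i).restrict_ne (hc.smooth _ (hc.mem _))
        intro h0
        apply hA
        have := LinearMap.congr_fun h0 ⟨t, ht⟩
        simpa [A', LinearMap.domRestrict_apply] using this
      have hφ'0 : φ' ≠ 0 := by
        obtain ⟨t, ht, hφt⟩ := hφK
        intro h0
        apply hφt
        have := LinearMap.congr_fun h0 ⟨t, ht⟩
        simpa [φ', LinearMap.domRestrict_apply] using this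
      obtain ⟨c, hc1⟩ := exists_smul_of_ker_le hA' (f := φ') (by
        intro t ht
        have ht' : g.A (p (k i)) (t : V) = 0 := ht
        have htl : ℓ (t : V) = 0 := t.2
        have h1 := ((hgoodk i).line (Good.add_mem (hu i) ht' htl 1) (hUk i) hwl).2.2.1
        rw [hBeq] at h1
        have h2 := hφu i
        simp only [map_add, one_smul] at h1
        show φ (t : V) = 0
        linarith)
      have hc0 : c ≠ 0 := by
        rintro rfl
        rw [zero_smul] at hc1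
        exact hφ'0 hc1
      have h3 := LinearMap.congr_fun hc1 ⟨z, hzl⟩
      simp only [φ', A', LinearMap.domRestrict_apply, LinearMap.smul_apply, smul_eq_mul] at h3
      rw [hzφ] at h3
      have h4 : g.A (p (k i)) z = 0 := (mul_eq_zero.1 h3.symm).resolve_left hc0
      have h5 : x - p (k i) = z + (u i - p (k i)) := by
        rw [hz]
        abel
      rw [h5, map_add, h4, (hu i).1, add_zero]
    -- the counting in the hyperplane
    have hℓW : ℓ.domRestrict W ≠ 0 := by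
      intro h0
      apply hy₀
      have := LinearMap.congr_fun h0 ⟨y₀, hy₀W⟩
      simpa [LinearMap.domRestrict_apply] using this
    set x₀ := u 0 with hx₀
    have hcount := count_hyper 3 ((g.shift x₀ W).val_poly)
      (fun _ => ℓ.domRestrict W) (fun i => ℓ (p (k i)) - κ (k i) - ℓ x₀) (fun _ => hℓW) ?_ ?_
    · apply hc.noLine x₀ y₀ hy₀
      intro t
      have hyW : t • y₀ ∈ W := W.smul_mem t hy₀W
      have := hcount ⟨t • y₀, hyW⟩
      rwa [g.shift_val] at this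
    · intro i j hij hset
      apply hij
      apply hk
      have hyW : ((ℓ (p (k i)) - κ (k i) - ℓ x₀) / ℓ y₀) • y₀ ∈ W := W.smul_mem _ hy₀W
      have h1 := Set.ext_iff.1 hset ⟨_, hyW⟩
      have h2 : ℓ.domRestrict W ⟨_, hyW⟩ = ℓ (p (k i)) - κ (k i) - ℓ x₀ := by
        simp only [LinearMap.domRestrict_apply, map_smul, smul_eq_mul]
        field_simp
      have h3 := h1.1 h2
      have h4 : ℓ.domRestrict W ⟨_, hyW⟩ = ℓ (p (k j)) - κ (k j) - ℓ x₀ := h3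
      rw [h2] at h4
      show ℓ (p (k i)) - κ (k i) = ℓ (p (k j)) - κ (k j)
      linarith
    · intro i y hy
      rw [g.shift_val]
      have hy1 : ℓ (y : V) = ℓ (p (k i)) - κ (k i) - ℓ x₀ := hy
      have hy2 : φ (y : V) = 0 := y.2
      refine (hgoodk i).zero (hclaim i _ ?_ ?_)
      · rw [map_add, hy2, add_zero]
        have h0 := hφu 0
        have h1 := hφu i
        rw [hx₀]
        linarith
      · rw [map_add, hy1]
        ring
  · -- at most three directions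
    apply hCs₀
    have hs₀K : s₀ ∈ K := hs₀
    have hcount := count_hyper 3 ((g.shift 0 K).Cf_poly)
      (fun i => (g.A (p (k i))).domRestrict K) (fun _ => 0) ?_ ?_ ?_ ⟨s₀, hs₀K⟩
    · exact hcount
    · intro i h0
      obtain ⟨t, ht, hA⟩ := (hkP i).restrict_ne (hc.smooth _ (hc.mem _))
      apply hA
      have := LinearMap.congr_fun h0 ⟨t, ht⟩
      simpa [LinearMap.domRestrict_apply] using this
    · intro i j hij hset
      apply hij
      apply hk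
      ext t
      constructor
      · rintro ⟨h1, h2⟩
        have h3 := Set.ext_iff.1 hset ⟨t, h2⟩
        exact ⟨h3.1 h1, h2⟩
      · rintro ⟨h1, h2⟩
        have h3 := Set.ext_iff.1 hset ⟨t, h2⟩
        exact ⟨h3.2 h1, h2⟩
    · intro i y hy
      exact (hkP i).Cf_zero hy y.2

/-- The cubic part vanishes on the level hyperplane through the origin. -/
theorem T_zero_of_K (hK : ∀ s, ℓ s = 0 → g.Cf s = 0) {s z : V} (hs : ℓ s = 0) (hz : ℓ z = 0) :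
    g.T s s z = 0 := by
  have h1 := g.Cf_add s z
  have h2 := g.Cf_add s (-z)
  rw [hK (s + z) (by rw [map_add, hs, hz, add_zero]), hK s hs, hK z hz] at h1
  rw [hK (s + -z) (by rw [map_add, map_neg, hs, hz, neg_zero, add_zero]), hK s hs,
    hK (-z) (by rw [map_neg, hz, neg_zero])] at h2
  simp only [map_neg, LinearMap.neg_apply, neg_neg] at h2
  linarith

theorem B_of_K (hK : ∀ s, ℓ s = 0 → g.Cf s = 0) {e : V} (he : ℓ e = 1) (x : V) {s : V}
    (hs : ℓ s = 0) : g.B x s = g.Q s s + 3 * (ℓ x * g.T e s s) := by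
  rw [g.B_eq]
  have hz : ℓ (x - ℓ x • e) = 0 := by
    rw [map_sub, map_smul, he, smul_eq_mul, mul_one, sub_self]
  have h1 : g.T (x - ℓ x • e) s s = 0 := by
    rw [← g.T_cycle (x - ℓ x • e) s s]
    exact T_zero_of_K hK hs hz
  have h2 : x = ℓ x • e + (x - ℓ x • e) := by abel
  have h3 : g.T x s s = ℓ x * g.T e s s + g.T (x - ℓ x • e) s s := by
    conv_lhs => rw [h2]
    simp only [map_add, map_smul, LinearMap.add_apply, LinearMap.smul_apply, smul_eq_mul]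
  rw [h3, h1, add_zero]

theorem Ctx.no_two_iso (hc : Ctx g ℓ p) (hK : ∀ s, ℓ s = 0 → g.Cf s = 0) {e : V} (he : ℓ e = 1)
    {w : V} (hw0 : w ≠ 0) (hwl : ℓ w = 0) {c₁ c₂ : ℚ} (hne : c₁ ≠ c₂)
    (h1 : g.Q w w + 3 * (c₁ * g.T e w w) = 0) (h2 : g.Q w w + 3 * (c₂ * g.T e w w) = 0) :
    False := by
  have h3 : (c₁ - c₂) * g.T e w w = 0 := by linarith
  have h4 : g.T e w w = 0 := (mul_eq_zero.1 h3).resolve_left (sub_ne_zero.2 hne)
  rw [h4, mul_zero, mul_zero, add_zero] at h1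
  apply hc.noW w hw0 hwl (hK w hwl)
  intro x
  rw [B_of_K hK he x hwl, h1, h4]
  ring

theorem Good.iso (hK : ∀ s, ℓ s = 0 → g.Cf s = 0) {e : V} (he : ℓ e = 1) {x : V} {κ : ℚ}
    (h : Good g ℓ x κ) {w : V} (hwA : g.A x w = 0) (hwl : ℓ w = 0) :
    g.Q w w + 3 * ((ℓ x - κ) * g.T e w w) = 0 := by
  obtain ⟨u, hu⟩ := h.exists_mem
  have h1 := (h.line hu hwA hwl).2.2.1
  rwa [B_of_K hK he u hwl, hu.2] at h1

/-- Dimension at least four with vanishing leading form on the level hyperplane. -/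
theorem Ctx.no_caseYb4 (hc : Ctx g ℓ p) (hn : 4 ≤ finrank ℚ V) {κ : ℕ → ℚ}
    (hgood : ∀ᶠ k in (hF : Filter ℕ), Good g ℓ (p k) (κ k))
    (hne : ∀ c : ℚ, ¬ ∀ᶠ k in (hF : Filter ℕ), ℓ (p k) - κ k = c)
    (hK : ∀ s, ℓ s = 0 → g.Cf s = 0) : False := by
  obtain ⟨e, he⟩ : ∃ e, ℓ e = 1 := by
    obtain ⟨k₀⟩ : Nonempty ℕ := inferInstance
    have h0 : ∃ z, ℓ z ≠ 0 := by
      by_contra hcon
      push Not at hcon
      exact hc.ne (LinearMap.ext hcon)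
    obtain ⟨z, hz⟩ := h0
    refine ⟨(ℓ z)⁻¹ • z, ?_⟩
    rw [map_smul, smul_eq_mul, inv_mul_cancel₀ hz]
  rcases exists_distinct_or_const (fun k => ℓ (p k) - κ k) 2 hgood with
    ⟨a, ha⟩ | ⟨k, hkP, hk⟩
  · exact hne a ha
  obtain ⟨w, hw0, h1, h2, h3⟩ := exists_common_zero3 hn (g.A (p (k 0))) (g.A (p (k 1))) ℓ
  have hi1 := (hkP 0).iso hK he h1 h3
  have hi2 := (hkP 1).iso hK he h2 h3
  refine hc.no_two_iso hK he hw0 h3 ?_ hi1 hi2
  intro h0
  have := hk (show (fun i => ℓ (p (k i)) - κ (k i)) 0 = (fun i => ℓ (p (k i)) - κ (k i)) 1 from h0)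
  exact absurd this (by decide)

/-- A conic containing a line has vanishing discriminant. -/
theorem conic_line (a b e l₁ l₂ k u₁ u₂ w₁ w₂ : ℚ) (hw : w₁ ≠ 0 ∨ w₂ ≠ 0)
    (h1 : w₁ ^ 2 * a + 2 * w₁ * w₂ * b + w₂ ^ 2 * e = 0)
    (h2 : w₁ * l₁ + w₂ * l₂ + 2 * (u₁ * w₁ * a + (u₁ * w₂ + u₂ * w₁) * b + u₂ * w₂ * e) = 0)
    (h3 : k + u₁ * l₁ + u₂ * l₂ + u₁ ^ 2 * a + 2 * u₁ * u₂ * b + u₂ ^ 2 * e = 0) :
    4 * k * (a * e - b ^ 2) - (e * l₁ ^ 2 - 2 * b * l₁ * l₂ + a * l₂ ^ 2) = 0 := by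
  set v₁ := a * u₁ + b * u₂ + l₁ / 2 with hv₁
  set v₂ := b * u₁ + e * u₂ + l₂ / 2 with hv₂
  have hvw : v₁ * w₁ + v₂ * w₂ = 0 := by
    rw [hv₁, hv₂]
    linear_combination h2 / 2
  have hadj : e * v₁ ^ 2 - 2 * b * v₁ * v₂ + a * v₂ ^ 2 = 0 := by
    rcases hw with hw | hw
    · have h4 : w₁ ^ 2 * (e * v₁ ^ 2 - 2 * b * v₁ * v₂ + a * v₂ ^ 2) = 0 := by
        have h5 : v₁ * w₁ = - (v₂ * w₂) := by linarith
        have h6 : w₁ ^ 2 * (e * v₁ ^ 2 - 2 * b * v₁ * v₂ + a * v₂ ^ 2) =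
            e * (v₁ * w₁) ^ 2 - 2 * b * (v₁ * w₁) * (v₂ * w₁) + a * (v₂ * w₁) ^ 2 := by ring
        rw [h6, h5]
        linear_combination v₂ ^ 2 * h1
      exact (mul_eq_zero.1 h4).resolve_left (pow_ne_zero 2 hw)
    · have h4 : w₂ ^ 2 * (e * v₁ ^ 2 - 2 * b * v₁ * v₂ + a * v₂ ^ 2) = 0 := by
        have h5 : v₂ * w₂ = - (v₁ * w₁) := by linarith
        have h6 : w₂ ^ 2 * (e * v₁ ^ 2 - 2 * b * v₁ * v₂ + a * v₂ ^ 2) =
            e * (v₁ * w₂) ^ 2 - 2 * b * (v₁ * w₂) * (v₂ * w₂) + a * (v₂ * w₂) ^ 2 := by ring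
        rw [h6, h5]
        linear_combination v₁ ^ 2 * h1
      exact (mul_eq_zero.1 h4).resolve_left (pow_ne_zero 2 hw)
  have hid : 4 * (a * e - b ^ 2) * (k + u₁ * l₁ + u₂ * l₂ + u₁ ^ 2 * a + 2 * u₁ * u₂ * b +
      u₂ ^ 2 * e) = 4 * (e * v₁ ^ 2 - 2 * b * v₁ * v₂ + a * v₂ ^ 2) +
      (4 * k * (a * e - b ^ 2) - (e * l₁ ^ 2 - 2 * b * l₁ * l₂ + a * l₂ ^ 2)) := by
    rw [hv₁, hv₂]
    ring
  rw [h3, hadj] at hid
  linarith

/-- The center of a conic of vanishing discriminant is a point of it. -/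
theorem conic_center (a b e l₁ l₂ k Δ : ℚ) (hΔ0 : Δ ≠ 0) (hΔ : Δ = a * e - b ^ 2)
    (hE : 4 * k * Δ - (e * l₁ ^ 2 - 2 * b * l₁ * l₂ + a * l₂ ^ 2) = 0) (y₁ y₂ : ℚ)
    (hy₁ : y₁ = (-e * l₁ + b * l₂) / (2 * Δ)) (hy₂ : y₂ = (b * l₁ - a * l₂) / (2 * Δ)) :
    k + y₁ * l₁ + y₂ * l₂ + y₁ ^ 2 * a + 2 * y₁ * y₂ * b + y₂ ^ 2 * e = 0 := by
  have hA1 : 2 * Δ * y₁ = -e * l₁ + b * l₂ := by
    rw [hy₁]
    field_simp
  have hA2 : 2 * Δ * y₂ = b * l₁ - a * l₂ := by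
    rw [hy₂]
    field_simp
  have hne : 4 * Δ ^ 2 ≠ 0 := by positivity
  apply mul_left_cancel₀ hne
  have h1 : 4 * Δ ^ 2 * (k + y₁ * l₁ + y₂ * l₂ + y₁ ^ 2 * a + 2 * y₁ * y₂ * b + y₂ ^ 2 * e) =
      4 * Δ ^ 2 * k + 2 * Δ * ((2 * Δ * y₁) * l₁ + (2 * Δ * y₂) * l₂) + (2 * Δ * y₁) ^ 2 * a +
        2 * (2 * Δ * y₁) * (2 * Δ * y₂) * b + (2 * Δ * y₂) ^ 2 * e := by ring
  rw [h1, hA1, hA2, mul_zero]
  have hS : a * (-e * l₁ + b * l₂) ^ 2 + 2 * b * (-e * l₁ + b * l₂) * (b * l₁ - a * l₂) +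
      e * (b * l₁ - a * l₂) ^ 2 = Δ * (e * l₁ ^ 2 - 2 * b * l₁ * l₂ + a * l₂ ^ 2) := by
    rw [hΔ]
    ring
  linear_combination Δ * hE + hS

/-- A pencil of degenerate binary forms. -/
theorem pencil_alg (a₀ α b₀ β e₀ η c₁ : ℚ)
    (h : ∀ c : ℚ, (a₀ + c * α) * (e₀ + c * η) - (b₀ + c * β) ^ 2 = 0) (h1 : a₀ + c₁ * α = 0) :
    b₀ + c₁ * β = 0 ∧ (α = 0 ∨ e₀ + c₁ * η = 0) := by
  have h0 := h c₁
  rw [h1, zero_mul, zero_sub, neg_eq_zero] at h0
  have hb : b₀ + c₁ * β = 0 := by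
    exact pow_eq_zero_iff (two_ne_zero) |>.1 h0
  refine ⟨hb, ?_⟩
  have hp := h (c₁ + 1)
  have hm := h (c₁ - 1)
  have e1 : a₀ + (c₁ + 1) * α = α := by linarith
  have e2 : a₀ + (c₁ - 1) * α = -α := by linarith
  have e3 : b₀ + (c₁ + 1) * β = β := by linarith
  have e4 : b₀ + (c₁ - 1) * β = -β := by linarith
  rw [e1, e3] at hp
  rw [e2, e4] at hm
  have h5 : α * (e₀ + c₁ * η) = 0 := by
    linear_combination (hp - hm) / 2
  exact mul_eq_zero.1 h5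

theorem val_two (hK : ∀ s, ℓ s = 0 → g.Cf s = 0) (x₀ f₁ f₂ : V) (y₁ y₂ : ℚ) (hf₁ : ℓ f₁ = 0)
    (hf₂ : ℓ f₂ = 0) :
    g.val (x₀ + (y₁ • f₁ + y₂ • f₂)) = g.val x₀ + y₁ * g.A x₀ f₁ + y₂ * g.A x₀ f₂ +
      y₁ ^ 2 * g.B x₀ f₁ + 2 * y₁ * y₂ * g.Bf x₀ f₁ f₂ + y₂ ^ 2 * g.B x₀ f₂ := by
  rw [g.val_add, hK (y₁ • f₁ + y₂ • f₂) (by simp [hf₁, hf₂]), g.B_add_dir, g.B_smul_dir,
    g.B_smul_dir]
  simp only [map_add, map_smul, LinearMap.smul_apply, smul_eq_mul]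
  ring

theorem B_two (x f₁ f₂ : V) (y₁ y₂ : ℚ) :
    g.B x (y₁ • f₁ + y₂ • f₂) =
      y₁ ^ 2 * g.B x f₁ + 2 * y₁ * y₂ * g.Bf x f₁ f₂ + y₂ ^ 2 * g.B x f₂ := by
  rw [g.B_add_dir, g.B_smul_dir, g.B_smul_dir]
  simp only [map_smul, LinearMap.smul_apply, smul_eq_mul]
  ring

theorem Bf_two (x f₁ f₂ : V) (u₁ u₂ w₁ w₂ : ℚ) :
    g.Bf x (u₁ • f₁ + u₂ • f₂) (w₁ • f₁ + w₂ • f₂) =
      u₁ * w₁ * g.B x f₁ + (u₁ * w₂ + u₂ * w₁) * g.Bf x f₁ f₂ + u₂ * w₂ * g.B x f₂ := by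
  simp only [map_add, map_smul, LinearMap.add_apply, LinearMap.smul_apply, smul_eq_mul, Cubic.B]
  rw [g.Bf_symm x f₂ f₁]
  ring

/-- Dimension three with vanishing leading form on the level hyperplane. -/
theorem Ctx.no_caseYb3 (hc : Ctx g ℓ p) (hn : finrank ℚ V = 3) {κ : ℕ → ℚ}
    (hgood : ∀ᶠ k in (hF : Filter ℕ), Good g ℓ (p k) (κ k))
    (hne : ∀ c : ℚ, ¬ ∀ᶠ k in (hF : Filter ℕ), ℓ (p k) - κ k = c)
    (hK : ∀ s, ℓ s = 0 → g.Cf s = 0) : False := by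
  classical
  obtain ⟨e, he⟩ : ∃ e, ℓ e = 1 := by
    have h0 : ∃ z, ℓ z ≠ 0 := by
      by_contra hcon
      push Not at hcon
      exact hc.ne (LinearMap.ext hcon)
    obtain ⟨z, hz⟩ := h0
    refine ⟨(ℓ z)⁻¹ • z, ?_⟩
    rw [map_smul, smul_eq_mul, inv_mul_cancel₀ hz]
  obtain ⟨k₁, hk₁⟩ := hgood.exists
  obtain ⟨f₁, hf₁0, hf₁A, hf₁l⟩ := exists_common_zero2 (by omega) (g.A (p k₁)) ℓ
  let K := LinearMap.ker ℓ
  have hKrank : finrank ℚ K = 2 := by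
    have h := Module.Dual.finrank_ker_add_one_of_ne_zero (f := ℓ) hc.ne
    have h' : finrank ℚ K + 1 = finrank ℚ V := h
    omega
  have hf₁K : f₁ ∈ K := hf₁l
  obtain ⟨f₂', hli⟩ := exists_linearIndependent_pair_of_one_lt_finrank
    (by omega : 1 < finrank ℚ K) (x := ⟨f₁, hf₁K⟩) (by simpa using hf₁0)
  let bK := basisOfLinearIndependentOfCardEqFinrank hli (by simp [hKrank])
  have hbK : ⇑bK = ![⟨f₁, hf₁K⟩, f₂'] := coe_basisOfLinearIndependentOfCardEqFinrank hli _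
  set f₂ : V := (f₂' : V) with hf₂def
  have hf₂l : ℓ f₂ = 0 := f₂'.2
  have hdec : ∀ y, ℓ y = 0 → ∃ y₁ y₂ : ℚ, y = y₁ • f₁ + y₂ • f₂ := by
    intro y hy
    refine ⟨bK.repr ⟨y, hy⟩ 0, bK.repr ⟨y, hy⟩ 1, ?_⟩
    have h1 := bK.sum_repr ⟨y, hy⟩
    rw [Fin.sum_univ_two, hbK] at h1
    have h2 := congrArg (Subtype.val) h1
    simpa using h2.symm
  -- the discriminant along the line through `e`
  let E : V → ℚ := fun x => 4 * g.val x * (g.B x f₁ * g.B x f₂ - (g.Bf x f₁ f₂) ^ 2) -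
    (g.B x f₂ * (g.A x f₁) ^ 2 - 2 * g.Bf x f₁ f₂ * g.A x f₁ * g.A x f₂ + g.B x f₁ * (g.A x f₂) ^ 2)
  have hzero : ∀ c u w, ℓ u = c → w ≠ 0 → ℓ w = 0 → g.val u = 0 → g.A u w = 0 → g.B u w = 0 →
      E (c • e) = 0 := by
    intro c u w hu hw0 hwl h3 h2 h1
    have hlc : ℓ (c • e) = c := by rw [map_smul, he, smul_eq_mul, mul_one]
    obtain ⟨u₁, u₂, hu₁⟩ := hdec (u - c • e) (by rw [map_sub, hu, hlc, sub_self])
    obtain ⟨w₁, w₂, hw₁⟩ := hdec w hwl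
    have huu : u = c • e + (u₁ • f₁ + u₂ • f₂) := by
      rw [← hu₁]
      abel
    have hw' : w₁ ≠ 0 ∨ w₂ ≠ 0 := by
      by_contra hcon
      push Not at hcon
      apply hw0
      rw [hw₁, hcon.1, hcon.2]
      simp
    have hl0 : ℓ (u₁ • f₁ + u₂ • f₂) = 0 := by simp [hf₁l, hf₂l]
    refine conic_line _ _ _ _ _ _ u₁ u₂ w₁ w₂ hw' ?_ ?_ ?_
    · have h4 : g.B (c • e) w = g.B u w := by
        rw [B_of_K hK he _ hwl, B_of_K hK he _ hwl, hlc, hu]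
      rw [h1, hw₁, B_two] at h4
      exact h4
    · have h4 := g.A_add (c • e) (u₁ • f₁ + u₂ • f₂) w
      rw [← huu, h2, T_zero_of_K hK hl0 hwl, hw₁, Bf_two] at h4
      simp only [map_add, map_smul, smul_eq_mul] at h4
      linear_combination (-1 : ℚ) * h4
    · have h4 := val_two hK (c • e) f₁ f₂ u₁ u₂ hf₁l hf₂l
      rw [← huu, h3] at h4
      exact h4.symm
  -- polynomials along the line
  obtain ⟨Pk, hPk⟩ := g.polyLine_val 0 e
  obtain ⟨Pa, hPa⟩ := g.polyLine_B_point f₁ 0 e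
  obtain ⟨Pb, hPb⟩ := g.polyLine_Bf_point f₁ f₂ 0 e
  obtain ⟨Pe, hPe⟩ := g.polyLine_B_point f₂ 0 e
  obtain ⟨Pl, hPl⟩ := g.polyLine_A_point f₁ 0 e
  obtain ⟨Pm, hPm⟩ := g.polyLine_A_point f₂ 0 e
  simp only [zero_add] at hPk hPa hPb hPe hPl hPm
  let R : Polynomial ℚ := Polynomial.C 4 * Pk * (Pa * Pe - Pb ^ 2) -
    (Pe * Pl ^ 2 - Polynomial.C 2 * Pb * Pl * Pm + Pa * Pm ^ 2)
  have hR : ∀ c, R.eval c = E (c • e) := by
    intro c
    simp only [R, E, Polynomial.eval_sub, Polynomial.eval_mul, Polynomial.eval_add,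
      Polynomial.eval_pow, Polynomial.eval_C, hPk, hPa, hPb, hPe, hPl, hPm]
  let D : Polynomial ℚ := Pa * Pe - Pb ^ 2
  have hDe : ∀ c, D.eval c = g.B (c • e) f₁ * g.B (c • e) f₂ - (g.Bf (c • e) f₁ f₂) ^ 2 := by
    intro c
    simp only [D, Polynomial.eval_sub, Polynomial.eval_mul, Polynomial.eval_pow, hPa, hPb, hPe]
  -- the discriminant vanishes
  have hR0 : R = 0 := by
    apply Polynomial.eq_zero_of_infinite_isRoot
    intro hfin
    have hfin' : {c : ℚ | R.IsRoot c}.Finite := hfin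
    have hev : ∀ᶠ k in (hF : Filter ℕ), ℓ (p k) - κ k ∈ {c : ℚ | R.IsRoot c} := by
      refine hgood.mono (fun k hk => ?_)
      show R.eval _ = 0
      rw [hR]
      obtain ⟨w, hw0, hwA, hwl⟩ := exists_common_zero2 (by omega) (g.A (p k)) ℓ
      obtain ⟨u, hu⟩ := hk.exists_mem
      obtain ⟨h3, h2, h1, -⟩ := hk.line hu hwA hwl
      exact hzero _ u w hu.2 hw0 hwl h3 h2 h1
    obtain ⟨a, -, ha⟩ := eventually_const_of_finite hfin' hev
    exact hne a ha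
  have hE0 : ∀ c : ℚ, E (c • e) = 0 := by
    intro c
    rw [← hR, hR0]
    simp
  by_cases hD : D = 0
  · -- all the conics are degenerate at infinity
    have hDzero : ∀ c, D.eval c = 0 := fun c => by rw [hD]; simp
    set a₀ := g.Q f₁ f₁ with ha₀
    set α := 3 * g.T e f₁ f₁ with hα
    set b₀ := g.Q f₁ f₂ with hb₀
    set β := 3 * g.T e f₁ f₂ with hβ
    set e₀ := g.Q f₂ f₂ with he₀
    set η := 3 * g.T e f₂ f₂ with hη
    have hlc : ∀ c : ℚ, ℓ (c • e) = c := fun c => by rw [map_smul, he, smul_eq_mul, mul_one]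
    have hBa : ∀ c : ℚ, g.B (c • e) f₁ = a₀ + c * α := by
      intro c
      rw [B_of_K hK he _ hf₁l, hlc, ha₀, hα]
      ring
    have hBe : ∀ c : ℚ, g.B (c • e) f₂ = e₀ + c * η := by
      intro c
      rw [B_of_K hK he _ hf₂l, hlc, he₀, hη]
      ring
    have hBb : ∀ c : ℚ, g.Bf (c • e) f₁ f₂ = b₀ + c * β := by
      intro c
      rw [g.Bf_apply]
      simp only [map_smul, LinearMap.smul_apply, smul_eq_mul]
      rw [hb₀, hβ]
      ring
    have hpencil : ∀ c : ℚ, (a₀ + c * α) * (e₀ + c * η) - (b₀ + c * β) ^ 2 = 0 := by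
      intro c
      have := hDzero c
      rwa [hDe, hBa, hBe, hBb] at this
    set c₁ := ℓ (p k₁) - κ k₁ with hc₁
    have hiso₁ : a₀ + c₁ * α = 0 := by
      have := hk₁.iso hK he hf₁A hf₁l
      rw [ha₀, hα]
      linarith
    obtain ⟨hb, hor⟩ := pencil_alg a₀ α b₀ β e₀ η c₁ hpencil hiso₁
    rcases hor with hα0 | he0
    · -- the first direction is isotropic for all levels
      have ha₀0 : a₀ = 0 := by
        rw [hα0, mul_zero, add_zero] at hiso₁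
        exact hiso₁
      apply hc.noW f₁ hf₁0 hf₁l (hK f₁ hf₁l)
      intro x
      rw [B_of_K hK he x hf₁l]
      have h3 : g.T e f₁ f₁ = 0 := by
        have : 3 * g.T e f₁ f₁ = 0 := hα0
        linarith
      rw [h3, mul_zero, mul_zero, add_zero]
      exact ha₀0
    · -- the form at the first level vanishes
      have hnot : ∀ᶠ k in (hF : Filter ℕ), ℓ (p k) - κ k ≠ c₁ :=
        Ultrafilter.eventually_not.2 (hne c₁)
      obtain ⟨k₂, hk₂g, hk₂⟩ := (hgood.and hnot).exists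
      obtain ⟨w, hw0, hwA, hwl⟩ := exists_common_zero2 (by omega) (g.A (p k₂)) ℓ
      have hi2 := hk₂g.iso hK he hwA hwl
      obtain ⟨w₁, w₂, hw⟩ := hdec w hwl
      have hi1 : g.Q w w + 3 * (c₁ * g.T e w w) = 0 := by
        have h1 := B_of_K hK he (c₁ • e) hwl
        rw [hlc] at h1
        rw [← h1]
        conv_lhs => rw [hw]
        rw [B_two, hBa, hBe, hBb, hiso₁, hb, he0]
        ring
      exact hc.no_two_iso hK he hw0 hwl (Ne.symm hk₂) hi1 hi2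
  · -- the center of the conic is a rational point on almost every level
    have hfin : {c : ℚ | D.IsRoot c}.Finite := Polynomial.finite_setOfPred_isRoot hD
    refine not_locFin_of_cofinite _ hfin ?_ hc.loc
    intro c hcD
    have hcD' : D.eval c ≠ 0 := hcD
    rw [hDe] at hcD'
    have hEc := hE0 c
    set a := g.B (c • e) f₁ with ha
    set b := g.Bf (c • e) f₁ f₂ with hb
    set ee := g.B (c • e) f₂ with hee
    set l₁ := g.A (c • e) f₁ with hl₁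
    set l₂ := g.A (c • e) f₂ with hl₂
    have hcen := conic_center a b ee l₁ l₂ (g.val (c • e)) (a * ee - b ^ 2) hcD' rfl hEc
      ((-ee * l₁ + b * l₂) / (2 * (a * ee - b ^ 2))) ((b * l₁ - a * l₂) / (2 * (a * ee - b ^ 2)))
      rfl rfl
    have hpt := (val_two hK (c • e) f₁ f₂ ((-ee * l₁ + b * l₂) / (2 * (a * ee - b ^ 2)))
      ((b * l₁ - a * l₂) / (2 * (a * ee - b ^ 2))) hf₁l hf₂l).trans hcen
    have h1 := mem_Lv (ℓ := ℓ) hpt
    have h2 : ∀ y₁ y₂ : ℚ, ℓ (c • e + (y₁ • f₁ + y₂ • f₂)) = c := by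
      intro y₁ y₂
      simp [he, hf₁l, hf₂l]
    rwa [h2] at h1

/-- The contradiction in dimension at least three. -/
theorem Ctx.false_of_high (hc : Ctx g ℓ p) (hn : 3 ≤ finrank ℚ V) : False := by
  classical
  have h1 : ∀ᶠ k in (hF : Filter ℕ), ¬ ∀ d, g.A (p k) d = 0 → g.Cf d = 0 :=
    Ultrafilter.eventually_not.2 hc.no_type1
  have h2 : ∀ᶠ k in (hF : Filter ℕ), ¬ ∀ d, g.A (p k) d = 0 → ℓ d = 0 :=
    Ultrafilter.eventually_not.2 hc.no_type2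
  have h3 : ∀ᶠ k in (hF : Filter ℕ), ¬ ∀ d, g.A (p k) d = 0 → g.B (p k) d = 0 :=
    Ultrafilter.eventually_not.2 hc.no_gauss
  have hex : ∀ k, ∃ κ : ℚ, ((¬ ∀ d, g.A (p k) d = 0 → g.Cf d = 0) ∧
      (¬ ∀ d, g.A (p k) d = 0 → ℓ d = 0) ∧ (¬ ∀ d, g.A (p k) d = 0 → g.B (p k) d = 0)) →
      Good g ℓ (p k) κ := by
    intro k
    by_cases hall : (¬ ∀ d, g.A (p k) d = 0 → g.Cf d = 0) ∧
      (¬ ∀ d, g.A (p k) d = 0 → ℓ d = 0) ∧ (¬ ∀ d, g.A (p k) d = 0 → g.B (p k) d = 0)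
    · rcases hc.tangent_type (hc.mem k) with h | h | h | ⟨κ, h1, h2, h3⟩
      · exact absurd h hall.1
      · exact absurd h hall.2.1
      · exact absurd h hall.2.2
      · exact ⟨κ, fun _ => ⟨hc.mem k, h1, h2, h3⟩⟩
    · exact ⟨0, fun h => absurd h hall⟩
  choose κ hκ using hex
  have hgood : ∀ᶠ k in (hF : Filter ℕ), Good g ℓ (p k) (κ k) := by
    filter_upwards [h1, h2, h3] with k h1 h2 h3
    exact hκ k ⟨h1, h2, h3⟩
  by_cases hconst : ∃ c₀ : ℚ, ∀ᶠ k in (hF : Filter ℕ), ℓ (p k) - κ k = c₀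
  · obtain ⟨c₀, hc₀⟩ := hconst
    exact hc.no_caseX hgood hc₀
  · have hne : ∀ c : ℚ, ¬ ∀ᶠ k in (hF : Filter ℕ), ℓ (p k) - κ k = c :=
      fun c h => hconst ⟨c, h⟩
    by_cases hK : ∀ s, ℓ s = 0 → g.Cf s = 0
    · by_cases hn4 : 4 ≤ finrank ℚ V
      · exact hc.no_caseYb4 hn4 hgood hne hK
      · exact hc.no_caseYb3 (by omega) hgood hne hK
    · push Not at hK
      obtain ⟨s₀, hs₀, hCs₀⟩ := hK
      exact hc.no_caseYa hn hgood hne hs₀ hCs₀

end Vale.Agent.Lib.P027
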