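import Vale.Agent.Lib.P027.Plane

/-!
The main theorem: induction on the dimension, and the passage from polynomials of total degree at
most three to cubic functions in symmetric form.
-/

namespace Vale.Agent.Lib.P027

open Filter Module

/-- Dimension at most one. -/
theorem Ctx.false_of_line {V : Type} [AddCommGroup V] [Module ℚ V] [FiniteDimensional ℚ V]
    {g : Cubic V} {ℓ : V →ₗ[ℚ] ℚ} {p : ℕ → V} (hc : Ctx g ℓ p) (hn : finrank ℚ V ≤ 1) : False := by
  have hker : LinearMap.ker ℓ = ⊥ := by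
    have h := Module.Dual.finrank_ker_add_one_of_ne_zero (f := ℓ) hc.ne
    have h0 : finrank ℚ (LinearMap.ker ℓ) = 0 := by omega
    exact Submodule.finrank_eq_zero.1 h0
  have hinj : Function.Injective ℓ := LinearMap.ker_eq_bot.1 hker
  obtain ⟨d, hd⟩ : ∃ d, ℓ d ≠ 0 := by
    by_contra hcon
    push Not at hcon
    exact hc.ne (LinearMap.ext hcon)
  apply hc.noLine 0 d hd
  intro t
  refine count_hyper 3 g.val_poly (fun _ => ℓ) (fun i => ℓ (p (i : ℕ))) (fun _ => hc.ne) ?_ ?_ _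
  · intro i j hij hset
    apply hij
    have h1 := Set.ext_iff.1 hset (p (i : ℕ))
    have h2 : ℓ (p (i : ℕ)) = ℓ (p (j : ℕ)) := h1.1 rfl
    exact Fin.ext (hc.inj h2)
  · intro i x hx
    rw [hinj hx]
    exact hc.mem _

/-- The main finiteness property in all dimensions. -/
theorem finProp_all : ∀ (n : ℕ) (V : Type) [AddCommGroup V] [Module ℚ V] [FiniteDimensional ℚ V],
    finrank ℚ V = n → FinProp V := by
  intro n
  induction n using Nat.strong_induction_on with
  | _ n ih =>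
    intro V _ _ _ hn g ℓ hℓ hL
    by_contra hinf
    have IH : ∀ W : Submodule ℚ V, W ≠ ⊤ → FinProp W := by
      intro W hW
      have hlt : finrank ℚ W < finrank ℚ V := Submodule.finrank_lt hW
      exact ih (finrank ℚ W) (by omega) W rfl
    obtain ⟨p, hc⟩ := exists_ctx IH hℓ hL hinf
    by_cases h1 : n ≤ 1
    · exact hc.false_of_line (by omega)
    by_cases h2 : n = 2
    · exact hc.false_of_two (by omega)
    · exact hc.false_of_high (by omega)

section conversion

variable {V : Type} [AddCommGroup V] [Module ℚ V]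

/-- Functions given by a cubic in symmetric form. -/
def IsCubicFn (f : V → ℚ) : Prop := ∃ g : Cubic V, ∀ x, f x = g.val x

theorem IsCubicFn.add {f h : V → ℚ} (hf : IsCubicFn f) (hh : IsCubicFn h) :
    IsCubicFn (fun x => f x + h x) := by
  obtain ⟨g₁, h₁⟩ := hf
  obtain ⟨g₂, h₂⟩ := hh
  refine ⟨⟨g₁.c0 + g₂.c0, g₁.L + g₂.L, g₁.Q + g₂.Q, g₁.T + g₂.T, ?_, ?_, ?_⟩, fun x => ?_⟩
  · intro x y
    simp [g₁.Qs x y, g₂.Qs x y]
  · intro x y z
    simp [g₁.Ts1 x y z, g₂.Ts1 x y z]
  · intro x y z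
    simp [g₁.Ts2 x y z, g₂.Ts2 x y z]
  · show f x + h x = _
    rw [h₁, h₂]
    simp only [Cubic.val, LinearMap.add_apply]
    ring

theorem IsCubicFn.const_mul {f : V → ℚ} (hf : IsCubicFn f) (c : ℚ) :
    IsCubicFn (fun x => c * f x) := by
  obtain ⟨g₁, h₁⟩ := hf
  refine ⟨⟨c * g₁.c0, c • g₁.L, c • g₁.Q, c • g₁.T, ?_, ?_, ?_⟩, fun x => ?_⟩
  · intro x y
    simp [g₁.Qs x y]
  · intro x y z
    simp [g₁.Ts1 x y z]
  · intro x y z
    simp [g₁.Ts2 x y z]
  · show c * f x = _
    rw [h₁]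
    simp only [Cubic.val, LinearMap.smul_apply, smul_eq_mul]
    ring

theorem IsCubicFn.const (c : ℚ) : IsCubicFn (fun _ : V => c) :=
  ⟨⟨c, 0, 0, 0, fun _ _ => rfl, fun _ _ _ => rfl, fun _ _ _ => rfl⟩, fun x => by simp [Cubic.val]⟩

/-- Homogeneous of degree one. -/
def H1 (f : V → ℚ) : Prop := ∃ L : V →ₗ[ℚ] ℚ, ∀ x, f x = L x

/-- Homogeneous of degree two. -/
def H2 (f : V → ℚ) : Prop :=
  ∃ Q : V →ₗ[ℚ] V →ₗ[ℚ] ℚ, (∀ x y, Q x y = Q y x) ∧ ∀ x, f x = Q x x

/-- Homogeneous of degree three. -/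
def H3 (f : V → ℚ) : Prop :=
  ∃ T : V →ₗ[ℚ] V →ₗ[ℚ] V →ₗ[ℚ] ℚ, (∀ x y z, T x y z = T y x z) ∧ (∀ x y z, T x y z = T x z y) ∧
    ∀ x, f x = T x x x

theorem H1.isCubic {f : V → ℚ} (h : H1 f) : IsCubicFn f := by
  obtain ⟨L, hL⟩ := h
  exact ⟨⟨0, L, 0, 0, fun _ _ => rfl, fun _ _ _ => rfl, fun _ _ _ => rfl⟩,
    fun x => by simp [Cubic.val, hL]⟩

theorem H2.isCubic {f : V → ℚ} (h : H2 f) : IsCubicFn f := by
  obtain ⟨Q, hQ, hf⟩ := h
  exact ⟨⟨0, 0, Q, 0, hQ, fun _ _ _ => rfl, fun _ _ _ => rfl⟩,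
    fun x => by simp [Cubic.val, hf]⟩

theorem H3.isCubic {f : V → ℚ} (h : H3 f) : IsCubicFn f := by
  obtain ⟨T, hT1, hT2, hf⟩ := h
  exact ⟨⟨0, 0, 0, T, fun _ _ => rfl, hT1, hT2⟩, fun x => by simp [Cubic.val, hf]⟩

theorem H1.mul {f h : V → ℚ} (hf : H1 f) (hh : H1 h) : H2 (fun x => f x * h x) := by
  obtain ⟨a, ha⟩ := hf
  obtain ⟨b, hb⟩ := hh
  refine ⟨LinearMap.mk₂ ℚ (fun x y => (a x * b y + a y * b x) / 2) ?_ ?_ ?_ ?_, ?_, ?_⟩
  · intro x y z
    simp only [map_add]
    ring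
  · intro c x y
    simp only [map_smul, smul_eq_mul]
    ring
  · intro x y z
    simp only [map_add]
    ring
  · intro c x y
    simp only [map_smul, smul_eq_mul]
    ring
  · intro x y
    simp only [LinearMap.mk₂_apply]
    ring
  · intro x
    simp only [LinearMap.mk₂_apply, ha, hb]
    ring

theorem H2.mul {f h : V → ℚ} (hf : H2 f) (hh : H1 h) : H3 (fun x => f x * h x) := by
  obtain ⟨Q, hQ, hf⟩ := hf
  obtain ⟨a, ha⟩ := hh
  let T : V →ₗ[ℚ] V →ₗ[ℚ] V →ₗ[ℚ] ℚ :=
    { toFun := fun x => LinearMap.mk₂ ℚ (fun y z => (Q x y * a z + Q y z * a x + Q x z * a y) / 3)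
        (by
          intro y y' z
          simp only [map_add, LinearMap.add_apply]
          ring)
        (by
          intro c y z
          simp only [map_smul, LinearMap.smul_apply, smul_eq_mul]
          ring)
        (by
          intro y z z'
          simp only [map_add]
          ring)
        (by
          intro c y z
          simp only [map_smul, smul_eq_mul]
          ring)
      map_add' := by
        intro x x'
        ext y z
        simp only [LinearMap.mk₂_apply, LinearMap.add_apply, map_add]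
        ring
      map_smul' := by
        intro c x
        ext y z
        simp only [LinearMap.mk₂_apply, LinearMap.smul_apply, map_smul, smul_eq_mul,
          RingHom.id_apply]
        ring }
  have hT : ∀ x y z, T x y z = (Q x y * a z + Q y z * a x + Q x z * a y) / 3 := fun _ _ _ => rfl
  refine ⟨T, ?_, ?_, ?_⟩
  · intro x y z
    rw [hT, hT, hQ x y]
    ring
  · intro x y z
    rw [hT, hT, hQ z y]
    ring
  · intro x
    show f x * h x = _
    rw [hT, hf, ha]
    ring

end conversion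

section monomials

variable {n : ℕ}

/-- The value of a monomial. -/
def monoVal (s : Fin n →₀ ℕ) (x : Fin n → ℚ) : ℚ := ∏ i, x i ^ s i

/-- The degree of a monomial. -/
def monoDeg (s : Fin n →₀ ℕ) : ℕ := s.sum fun _ e => e

theorem monoVal_zero (x : Fin n → ℚ) : monoVal 0 x = 1 := by
  simp [monoVal]

theorem monoVal_add_single (s : Fin n →₀ ℕ) (i : Fin n) (x : Fin n → ℚ) :
    monoVal (s + Finsupp.single i 1) x = monoVal s x * x i := by
  classical
  simp only [monoVal, Finsupp.add_apply, pow_add, Finset.prod_mul_distrib]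
  congr 1
  rw [Finset.prod_eq_single i]
  · simp
  · intro j _ hj
    simp [Ne.symm hj]
  · simp

theorem monoDeg_add_single (s : Fin n →₀ ℕ) (i : Fin n) :
    monoDeg (s + Finsupp.single i 1) = monoDeg s + 1 := by
  unfold monoDeg
  rw [Finsupp.sum_add_index' (by simp) (by simp)]
  simp

theorem eq_zero_of_monoDeg (s : Fin n →₀ ℕ) (h : monoDeg s = 0) : s = 0 := by
  unfold monoDeg at h
  rw [Finsupp.sum, Finset.sum_eq_zero_iff] at h
  ext i
  by_contra hi
  exact hi (h i (Finsupp.mem_support_iff.2 hi))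

theorem exists_step (s : Fin n →₀ ℕ) (j : ℕ) (h : monoDeg s = j + 1) :
    ∃ (s' : Fin n →₀ ℕ) (i : Fin n), s = s' + Finsupp.single i 1 ∧ monoDeg s' = j := by
  classical
  have hs : s ≠ 0 := by
    rintro rfl
    simp [monoDeg] at h
  obtain ⟨i, hi⟩ : ∃ i, s i ≠ 0 := by
    by_contra hcon
    push Not at hcon
    exact hs (Finsupp.ext hcon)
  have hle : Finsupp.single i 1 ≤ s := by
    rw [Finsupp.single_le_iff]
    exact Nat.one_le_iff_ne_zero.2 hi
  refine ⟨s - Finsupp.single i 1, i, (tsub_add_cancel_of_le hle).symm, ?_⟩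
  have h1 : monoDeg s = monoDeg (s - Finsupp.single i 1) + 1 := by
    rw [← monoDeg_add_single, tsub_add_cancel_of_le hle]
  omega

theorem coord_H1 (i : Fin n) : H1 (fun x : Fin n → ℚ => x i) :=
  ⟨LinearMap.proj i, fun _ => rfl⟩

theorem mono_H1 (s : Fin n →₀ ℕ) (h : monoDeg s = 1) : H1 (monoVal s) := by
  obtain ⟨s', i, rfl, hs'⟩ := exists_step s 0 h
  have h0 := eq_zero_of_monoDeg s' hs'
  subst h0
  refine ⟨LinearMap.proj i, fun x => ?_⟩
  rw [monoVal_add_single, monoVal_zero, one_mul]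
  rfl

theorem mono_H2 (s : Fin n →₀ ℕ) (h : monoDeg s = 2) : H2 (monoVal s) := by
  obtain ⟨s', i, rfl, hs'⟩ := exists_step s 1 h
  have h1 := (mono_H1 s' hs').mul (coord_H1 i)
  convert h1 using 2
  exact monoVal_add_single _ _ _

theorem mono_H3 (s : Fin n →₀ ℕ) (h : monoDeg s = 3) : H3 (monoVal s) := by
  obtain ⟨s', i, rfl, hs'⟩ := exists_step s 2 h
  have h1 := (mono_H2 s' hs').mul (coord_H1 i)
  convert h1 using 2
  exact monoVal_add_single _ _ _

theorem mono_isCubic (s : Fin n →₀ ℕ) (h : monoDeg s ≤ 3) : IsCubicFn (monoVal s) := by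
  have h' : monoDeg s = 0 ∨ monoDeg s = 1 ∨ monoDeg s = 2 ∨ monoDeg s = 3 := by omega
  rcases h' with h0 | h1 | h2 | h3
  · have := eq_zero_of_monoDeg s h0
    subst this
    have h4 : monoVal (0 : Fin n →₀ ℕ) = fun _ => 1 := funext monoVal_zero
    rw [h4]
    exact IsCubicFn.const 1
  · exact (mono_H1 s h1).isCubic
  · exact (mono_H2 s h2).isCubic
  · exact (mono_H3 s h3).isCubic

/-- A polynomial of total degree at most three is a cubic function. -/
theorem isCubic_of_totalDegree (P : MvPolynomial (Fin n) ℚ) (hP : P.totalDegree ≤ 3) :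
    IsCubicFn (fun x : Fin n → ℚ => MvPolynomial.eval x P) := by
  classical
  have h1 : ∀ t : Finset (Fin n →₀ ℕ), (∀ s ∈ t, monoDeg s ≤ 3) →
      IsCubicFn (fun x : Fin n → ℚ => ∑ s ∈ t, P.coeff s * monoVal s x) := by
    intro t
    induction t using Finset.induction_on with
    | empty =>
      intro _
      simpa using IsCubicFn.const (V := Fin n → ℚ) 0
    | insert a t ha ih =>
      intro hall
      have h2 := ih (fun s hs => hall s (Finset.mem_insert_of_mem hs))
      have h3 := (mono_isCubic a (hall a (Finset.mem_insert_self _ _))).const_mul (P.coeff a)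
      have h4 := h3.add h2
      convert h4 using 2
      rw [Finset.sum_insert ha]
  have h2 := h1 P.support (fun s hs => (MvPolynomial.le_totalDegree hs).trans hP)
  convert h2 using 2
  rw [MvPolynomial.eval_eq']
  rfl

end monomials

/-- The main theorem, for polynomials. -/
theorem main_thm (m : ℕ) (P : MvPolynomial (Fin (m + 1)) ℚ) (hP : P.totalDegree ≤ 3) :
    {x : ℚ | ∃ y : Fin m → ℚ, MvPolynomial.eval (Fin.cons x y : Fin (m + 1) → ℚ) P = 0}.Finite ∨
    ∃ R : ℚ, ({x : ℚ | ∃ y : Fin m → ℚ, MvPolynomial.eval (Fin.cons x y : Fin (m + 1) → ℚ) P = 0} ∩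
      {x : ℚ | |x| ≤ R}).Infinite := by
  obtain ⟨g, hg⟩ := isCubic_of_totalDegree P hP
  let ℓ : (Fin (m + 1) → ℚ) →ₗ[ℚ] ℚ := LinearMap.proj 0
  have hℓ : ℓ ≠ 0 := by
    intro h0
    have h1 := LinearMap.congr_fun h0 (fun _ => 1)
    simp [ℓ] at h1
  have hset : {x : ℚ | ∃ y : Fin m → ℚ, MvPolynomial.eval (Fin.cons x y : Fin (m + 1) → ℚ) P = 0} =
      Lv g ℓ := by
    ext x
    constructor
    · rintro ⟨y, hy⟩
      refine ⟨Fin.cons x y, ?_, by simp [ℓ]⟩
      show g.val _ = 0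
      rw [← hg]
      exact hy
    · rintro ⟨z, hz, rfl⟩
      refine ⟨Fin.tail z, ?_⟩
      have h1 : g.val z = 0 := hz
      rw [← hg] at h1
      have h2 : (Fin.cons (ℓ z) (Fin.tail z) : Fin (m + 1) → ℚ) = z := Fin.cons_self_tail z
      rw [h2]
      exact h1
  rw [hset]
  by_cases hL : LocFin (Lv g ℓ)
  · exact Or.inl (finProp_all _ _ rfl g ℓ hℓ hL)
  · right
    unfold LocFin at hL
    push Not at hL
    obtain ⟨R, hR⟩ := hL
    exact ⟨R, hR⟩

/-- In particular a polynomial of total degree at most three does not define the integers. -/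
theorem main_integers (m : ℕ) (P : MvPolynomial (Fin (m + 1)) ℚ) (hP : P.totalDegree ≤ 3) :
    ¬ ∀ x : ℚ, (∃ n : ℤ, x = n) ↔
      ∃ y : Fin m → ℚ, MvPolynomial.eval (Fin.cons x y : Fin (m + 1) → ℚ) P = 0 := by
  intro h
  have hset : {x : ℚ | ∃ y : Fin m → ℚ, MvPolynomial.eval (Fin.cons x y : Fin (m + 1) → ℚ) P = 0} =
      Set.range (fun n : ℤ => (n : ℚ)) := by
    ext x
    constructor
    · intro hx
      obtain ⟨n, hn⟩ := (h x).2 hx
      exact ⟨n, hn.symm⟩
    · rintro ⟨n, rfl⟩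
      exact (h _).1 ⟨n, rfl⟩
  rcases main_thm m P hP with h1 | ⟨R, h1⟩
  · rw [hset] at h1
    exact (Set.infinite_range_of_injective Int.cast_injective) h1
  · rw [hset] at h1
    apply h1
    refine Set.Finite.subset ((Set.finite_Icc (⌊-R⌋) (⌈R⌉)).image (fun n : ℤ => (n : ℚ))) ?_
    rintro _ ⟨⟨n, rfl⟩, hn⟩
    refine ⟨n, ⟨?_, ?_⟩, rfl⟩
    · have hn' : |(n : ℚ)| ≤ R := hn
      have h2 := (abs_le.1 hn').1
      exact Int.floor_le_iff.2 (by linarith) 
    · have hn' : |(n : ℚ)| ≤ R := hn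
      have h2 := (abs_le.1 hn').2
      exact Int.le_ceil_iff.2 (by linarith)

end Vale.Agent.Lib.P027
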