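import Vale.Agent.Lib.P027.High2

/-!
Dimension two: the limit direction of the sequence of zeros, and the third point on chords.
-/

namespace Vale.Agent.Lib.P027

open Filter Module Topology

variable {V : Type} [AddCommGroup V] [Module ℚ V]

theorem exists_lim_of_bdd (u : ℕ → ℝ) (hu : ∀ k, |u k| ≤ 1) :
    ∃ L : ℝ, Tendsto u (hF : Filter ℕ) (𝓝 L) := by
  have hle : ((hF.map u : Ultrafilter ℝ) : Filter ℝ) ≤ 𝓟 (Set.Icc (-1 : ℝ) 1) := by
    rw [le_principal_iff]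
    show (Set.Icc (-1 : ℝ) 1) ∈ Filter.map u (hF : Filter ℕ)
    rw [Filter.mem_map]
    refine Filter.Eventually.of_forall (fun k => ?_)
    exact abs_le.1 (hu k)
  obtain ⟨L, -, hL⟩ := isCompact_Icc.ultrafilter_le_nhds _ hle
  exact ⟨L, hL⟩

/-- A double root of a rational binary cubic form is rational. -/
theorem rational_direction (a b c e : ℚ) (hne : a ≠ 0 ∨ b ≠ 0 ∨ c ≠ 0 ∨ e ≠ 0) (r s : ℝ)
    (E1 : (a : ℝ) * r ^ 2 + 2 * b * (r * s) + c * s ^ 2 = 0)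
    (E2 : (b : ℝ) * r ^ 2 + 2 * c * (r * s) + e * s ^ 2 = 0) :
    ∃ w₁ w₂ : ℚ, (w₁ ≠ 0 ∨ w₂ ≠ 0) ∧ r * w₂ = s * w₁ := by
  by_cases hs : s = 0
  · exact ⟨1, 0, Or.inl one_ne_zero, by simp [hs]⟩
  by_cases hr : r = 0
  · exact ⟨0, 1, Or.inr one_ne_zero, by simp [hr]⟩
  -- the three minors
  set n₁ : ℚ := 2 * (b * e - c ^ 2) with hn₁
  set n₂ : ℚ := b * c - a * e with hn₂
  set n₃ : ℚ := 2 * (a * c - b ^ 2) with hn₃
  have hn₁' : (n₁ : ℝ) = 2 * ((b : ℝ) * e - c ^ 2) := by rw [hn₁]; push_cast; ring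
  have hn₂' : (n₂ : ℝ) = (b : ℝ) * c - a * e := by rw [hn₂]; push_cast; ring
  have hn₃' : (n₃ : ℝ) = 2 * ((a : ℝ) * c - b ^ 2) := by rw [hn₃]; push_cast; ring
  have h1 : s * ((n₂ : ℝ) * s - n₃ * r) = 0 := by
    rw [hn₂', hn₃']
    linear_combination (b : ℝ) * E1 - (a : ℝ) * E2
  have h2 : r * ((n₁ : ℝ) * s - n₂ * r) = 0 := by
    rw [hn₁', hn₂']
    linear_combination (e : ℝ) * E1 - (c : ℝ) * E2
  have h1' : (n₂ : ℝ) * s = n₃ * r := by
    have := (mul_eq_zero.1 h1).resolve_left hs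
    linarith
  have h2' : (n₁ : ℝ) * s = n₂ * r := by
    have := (mul_eq_zero.1 h2).resolve_left hr
    linarith
  by_cases h3 : n₂ ≠ 0 ∨ n₃ ≠ 0
  · exact ⟨n₂, n₃, h3, by linarith⟩
  by_cases h4 : n₁ ≠ 0
  · exact ⟨n₁, n₂, Or.inl h4, by linarith⟩
  push Not at h3 h4
  obtain ⟨h5, h6⟩ := h3
  -- all minors vanish
  have hac : a * c = b ^ 2 := by
    have : 2 * (a * c - b ^ 2) = 0 := h6
    linarith
  by_cases ha : a = 0
  · have hb : b = 0 := by
      rw [ha, zero_mul] at hac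
      exact (pow_eq_zero_iff two_ne_zero).1 hac.symm
    have hc' : c = 0 := by
      have h7 : (c : ℝ) * s ^ 2 = 0 := by
        rw [ha, hb] at E1
        simpa using E1
      have h8 := (mul_eq_zero.1 h7).resolve_right (pow_ne_zero 2 hs)
      exact_mod_cast h8
    have he : e = 0 := by
      have h7 : (e : ℝ) * s ^ 2 = 0 := by
        rw [hb, hc'] at E2
        simpa using E2
      have h8 := (mul_eq_zero.1 h7).resolve_right (pow_ne_zero 2 hs)
      exact_mod_cast h8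
    rcases hne with h | h | h | h
    · exact absurd ha h
    · exact absurd hb h
    · exact absurd hc' h
    · exact absurd he h
  · refine ⟨-b, a, Or.inr ha, ?_⟩
    have hac' : (a : ℝ) * c = b ^ 2 := by exact_mod_cast hac
    have h7 : ((a : ℝ) * r + b * s) ^ 2 = 0 := by
      have h8 : ((a : ℝ) * r + b * s) ^ 2 = a * ((a : ℝ) * r ^ 2 + 2 * b * (r * s) + c * s ^ 2) +
          ((b : ℝ) ^ 2 - a * c) * s ^ 2 := by ring
      rw [h8, E1, hac']
      ring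
    have h9 := (pow_eq_zero_iff two_ne_zero).1 h7
    push_cast
    linarith

section ctx

set_option linter.unusedSectionVars false

variable [FiniteDimensional ℚ V] {g : Cubic V} {ℓ : V →ₗ[ℚ] ℚ} {p : ℕ → V}

/-- The coordinates tend to infinity, with a limit direction. -/
theorem Ctx.exists_limit (hc : Ctx g ℓ p) {c₁ c₂ : V →ₗ[ℚ] ℚ} {e₁ e₂ : V}
    (hdec : ∀ x, x = c₁ x • e₁ + c₂ x • e₂) :
    ∃ (N : ℕ → ℝ) (r s : ℝ), (∀ R : ℝ, ∀ᶠ k in (hF : Filter ℕ), R < N k) ∧ (r ≠ 0 ∨ s ≠ 0) ∧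
      Tendsto (fun k => (c₁ (p k) : ℝ) / N k) (hF : Filter ℕ) (𝓝 r) ∧
      Tendsto (fun k => (c₂ (p k) : ℝ) / N k) (hF : Filter ℕ) (𝓝 s) := by
  set N : ℕ → ℝ := fun k => max |(c₁ (p k) : ℝ)| |(c₂ (p k) : ℝ)| with hN
  have hN0 : ∀ k, 0 ≤ N k := fun k => le_max_of_le_left (abs_nonneg _)
  have hN1 : ∀ k, |(c₁ (p k) : ℝ)| ≤ N k := fun k => le_max_left _ _
  have hN2 : ∀ k, |(c₂ (p k) : ℝ)| ≤ N k := fun k => le_max_right _ _
  set L : ℝ := |(ℓ e₁ : ℝ)| + |(ℓ e₂ : ℝ)| with hL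
  have hLpos : 0 < L := by
    by_contra hcon
    have h0 : L = 0 := le_antisymm (not_lt.1 hcon) (by positivity)
    have h1 : |(ℓ e₁ : ℝ)| = 0 := by
      have := abs_nonneg (ℓ e₁ : ℝ)
      have := abs_nonneg (ℓ e₂ : ℝ)
      linarith
    have h2 : |(ℓ e₂ : ℝ)| = 0 := by
      have := abs_nonneg (ℓ e₁ : ℝ)
      have := abs_nonneg (ℓ e₂ : ℝ)
      linarith
    have h3 : ℓ e₁ = 0 := by
      have := abs_eq_zero.1 h1
      exact_mod_cast this
    have h4 : ℓ e₂ = 0 := by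
      have := abs_eq_zero.1 h2
      exact_mod_cast this
    apply hc.ne
    refine LinearMap.ext (fun x => ?_)
    rw [hdec x]
    simp [h3, h4]
  have hbound : ∀ k, |(ℓ (p k) : ℝ)| ≤ N k * L := by
    intro k
    have h1 : ℓ (p k) = c₁ (p k) * ℓ e₁ + c₂ (p k) * ℓ e₂ := by
      conv_lhs => rw [hdec (p k)]
      simp
    have h2 : (ℓ (p k) : ℝ) = c₁ (p k) * ℓ e₁ + c₂ (p k) * ℓ e₂ := by exact_mod_cast h1
    rw [h2, hL]
    calc |((c₁ (p k) : ℝ) * ℓ e₁ + c₂ (p k) * ℓ e₂)|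
        ≤ |(c₁ (p k) : ℝ)| * |(ℓ e₁ : ℝ)| + |(c₂ (p k) : ℝ)| * |(ℓ e₂ : ℝ)| := by
          refine (abs_add_le _ _).trans (le_of_eq ?_)
          rw [abs_mul, abs_mul]
      _ ≤ N k * |(ℓ e₁ : ℝ)| + N k * |(ℓ e₂ : ℝ)| := by
          gcongr
          · exact hN1 k
          · exact hN2 k
      _ = N k * (|(ℓ e₁ : ℝ)| + |(ℓ e₂ : ℝ)|) := by ring
  have hfar : ∀ R : ℝ, ∀ᶠ k in (hF : Filter ℕ), R < N k := by
    intro R
    obtain ⟨R', hR'⟩ := exists_rat_gt (|R| * L)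
    have hfin := (hc.loc R').preimage (f := fun k => ℓ (p k)) hc.inj.injOn
    have hev : ∀ᶠ k in (hF : Filter ℕ), ¬ |ℓ (p k)| ≤ R' := by
      apply hF_le_cofinite
      rw [Filter.mem_cofinite]
      refine hfin.subset ?_
      intro k hk
      have hk' : |ℓ (p k)| ≤ R' := by
        by_contra h
        exact hk h
      exact ⟨⟨p k, hc.mem k, rfl⟩, hk'⟩
    refine hev.mono (fun k hk => ?_)
    have h1 : (R' : ℝ) < |(ℓ (p k) : ℝ)| := by
      have : R' < |ℓ (p k)| := not_le.1 hk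
      exact_mod_cast this
    have h2 := hbound k
    have h3 : |R| * L < N k * L := by linarith
    have h4 := lt_of_mul_lt_mul_right h3 hLpos.le
    exact lt_of_le_of_lt (le_abs_self R) h4
  have hbd₁ : ∀ k, |(c₁ (p k) : ℝ) / N k| ≤ 1 := by
    intro k
    rw [abs_div, abs_of_nonneg (hN0 k)]
    exact div_le_one_of_le₀ (hN1 k) (hN0 k)
  have hbd₂ : ∀ k, |(c₂ (p k) : ℝ) / N k| ≤ 1 := by
    intro k
    rw [abs_div, abs_of_nonneg (hN0 k)]
    exact div_le_one_of_le₀ (hN2 k) (hN0 k)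
  obtain ⟨r, hr⟩ := exists_lim_of_bdd _ hbd₁
  obtain ⟨s, hs⟩ := exists_lim_of_bdd _ hbd₂
  refine ⟨N, r, s, hfar, ?_, hr, hs⟩
  by_contra hcon
  push Not at hcon
  obtain ⟨hr0, hs0⟩ := hcon
  rw [hr0] at hr
  rw [hs0] at hs
  have e1 := (Metric.tendsto_nhds.1 hr) 1 one_pos
  have e2 := (Metric.tendsto_nhds.1 hs) 1 one_pos
  obtain ⟨k, ⟨hk1, hk2⟩, hk3⟩ := ((e1.and e2).and (hfar 0)).exists
  rw [Real.dist_eq, sub_zero] at hk1 hk2
  rw [abs_div, abs_of_pos hk3, div_lt_one hk3] at hk1 hk2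
  have hmax : N k = |(c₁ (p k) : ℝ)| ∨ N k = |(c₂ (p k) : ℝ)| := max_choice _ _
  rcases hmax with h | h
  · linarith
  · linarith

/-- A functional vanishing at a given vector, in coordinates. -/
theorem exists_form_zero {c₁ c₂ : V →ₗ[ℚ] ℚ} {e₁ e₂ : V} (hdec : ∀ x, x = c₁ x • e₁ + c₂ x • e₂)
    (h11 : c₁ e₁ = 1) (h12 : c₁ e₂ = 0) (h21 : c₂ e₁ = 0) (h22 : c₂ e₂ = 1) {w : V} (hw : w ≠ 0) :
    ∃ φ : V →ₗ[ℚ] ℚ, φ ≠ 0 ∧ φ w = 0 := by
  refine ⟨c₂ w • c₁ - c₁ w • c₂, ?_, ?_⟩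
  · intro h0
    apply hw
    have h1 := LinearMap.congr_fun h0 e₁
    have h2 := LinearMap.congr_fun h0 e₂
    simp [h11, h12, h21, h22] at h1 h2
    rw [hdec w, h1, h2]
    simp
  · simp
    ring

/-- Chords through a zero give a third zero, of bounded level when the direction is not
asymptotically special. -/
theorem Ctx.third_point (hc : Ctx g ℓ p) (hn : finrank ℚ V = 2) {c₁ c₂ : V →ₗ[ℚ] ℚ} {e₁ e₂ : V}
    (hdec : ∀ x, x = c₁ x • e₁ + c₂ x • e₂) (h11 : c₁ e₁ = 1) (h12 : c₁ e₂ = 0) (h21 : c₂ e₁ = 0)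
    (h22 : c₂ e₂ = 1) {N : ℕ → ℝ} {r s : ℝ} (hfar : ∀ R : ℝ, ∀ᶠ k in (hF : Filter ℕ), R < N k)
    (hr : Tendsto (fun k => (c₁ (p k) : ℝ) / N k) (hF : Filter ℕ) (𝓝 r))
    (hs : Tendsto (fun k => (c₂ (p k) : ℝ) / N k) (hF : Filter ℕ) (𝓝 s)) {O : V}
    (hO : g.val O = 0) :
    r ^ 2 * (g.B O e₁ : ℝ) + 2 * r * s * (g.Bf O e₁ e₂ : ℝ) + s ^ 2 * (g.B O e₂ : ℝ) = 0 := by
  classical
  by_contra hβ
  set β : ℝ := r ^ 2 * (g.B O e₁ : ℝ) + 2 * r * s * (g.Bf O e₁ e₂ : ℝ) + s ^ 2 * (g.B O e₂ : ℝ)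
    with hβdef
  have hNpos : ∀ᶠ k in (hF : Filter ℕ), 0 < N k := hfar 0
  have hNtop : Tendsto N (hF : Filter ℕ) atTop :=
    tendsto_atTop.2 (fun b => (hfar b).mono (fun k hk => le_of_lt hk))
  have hinv : Tendsto (fun k => (N k)⁻¹) (hF : Filter ℕ) (𝓝 0) :=
    tendsto_inv_atTop_zero.comp hNtop
  set d : ℕ → V := fun k => p k - O with hd
  have hu : Tendsto (fun k => (c₁ (d k) : ℝ) / N k) (hF : Filter ℕ) (𝓝 r) := by
    have h1 := hr.sub (hinv.const_mul (c₁ O : ℝ))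
    simp only [mul_zero, sub_zero] at h1
    refine h1.congr (fun k => ?_)
    simp only [hd, map_sub]
    push_cast
    ring
  have hv : Tendsto (fun k => (c₂ (d k) : ℝ) / N k) (hF : Filter ℕ) (𝓝 s) := by
    have h1 := hs.sub (hinv.const_mul (c₂ O : ℝ))
    simp only [mul_zero, sub_zero] at h1
    refine h1.congr (fun k => ?_)
    simp only [hd, map_sub]
    push_cast
    ring
  have hform : ∀ f : V →ₗ[ℚ] ℚ, Tendsto (fun k => (f (d k) : ℝ) / N k) (hF : Filter ℕ)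
      (𝓝 (r * (f e₁ : ℝ) + s * (f e₂ : ℝ))) := by
    intro f
    refine ((hu.mul_const (f e₁ : ℝ)).add (hv.mul_const (f e₂ : ℝ))).congr (fun k => ?_)
    have h1 : f (d k) = c₁ (d k) * f e₁ + c₂ (d k) * f e₂ := by
      conv_lhs => rw [hdec (d k)]
      simp
    rw [h1]
    push_cast
    ring
  have hquad : Tendsto (fun k => (g.B O (d k) : ℝ) / N k ^ 2) (hF : Filter ℕ) (𝓝 β) := by
    have h1 := ((hu.pow 2).mul_const (g.B O e₁ : ℝ)).add
      (((hu.mul hv).const_mul (2 : ℝ)).mul_const (g.Bf O e₁ e₂ : ℝ)) |>.add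
      ((hv.pow 2).mul_const (g.B O e₂ : ℝ))
    have hβ' : r ^ 2 * (g.B O e₁ : ℝ) + 2 * (r * s) * (g.Bf O e₁ e₂ : ℝ) +
        s ^ 2 * (g.B O e₂ : ℝ) = β := by
      rw [hβdef]
      ring
    rw [hβ'] at h1
    refine h1.congr (fun k => ?_)
    have h2 : g.B O (d k) = c₁ (d k) ^ 2 * g.B O e₁ + 2 * c₁ (d k) * c₂ (d k) * g.Bf O e₁ e₂ +
        c₂ (d k) ^ 2 * g.B O e₂ := by
      conv_lhs => rw [hdec (d k)]
      exact B_two O e₁ e₂ _ _
    rw [h2]
    push_cast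
    ring
  set α : ℝ := r * (g.A O e₁ : ℝ) + s * (g.A O e₂ : ℝ) with hα
  set lam : ℝ := r * (ℓ e₁ : ℝ) + s * (ℓ e₂ : ℝ) with hlam
  have hA := hform (g.A O)
  have hl := hform ℓ
  have hrel : ∀ k, g.A O (d k) + g.B O (d k) + g.Cf (d k) = 0 := by
    intro k
    have h1 := g.val_add O (d k)
    have h2 : O + d k = p k := by simp [hd]
    rw [h2, hc.mem k, hO] at h1
    linarith
  have hC : Tendsto (fun k => (g.Cf (d k) : ℝ) / N k ^ 2) (hF : Filter ℕ) (𝓝 (-β)) := by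
    have h1 := ((hA.mul hinv).add hquad).neg
    simp only [mul_zero, zero_add] at h1
    refine h1.congr (fun k => ?_)
    have h2 : g.Cf (d k) = -(g.A O (d k) + g.B O (d k)) := by
      have := hrel k
      linarith
    rw [h2]
    push_cast
    ring
  have hβneg : -β ≠ 0 := neg_ne_zero.2 hβ
  have hCne : ∀ᶠ k in (hF : Filter ℕ), g.Cf (d k) ≠ 0 := by
    refine (hC.eventually_ne hβneg).mono (fun k hk h0 => hk ?_)
    rw [h0]
    simp
  set t : ℕ → ℚ := fun k => g.A O (d k) / g.Cf (d k) with ht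
  set q : ℕ → V := fun k => O + t k • d k with hq
  have hqval : ∀ k, g.Cf (d k) ≠ 0 → g.val (q k) = 0 := by
    intro k hk
    simp only [hq]
    rw [g.val_line, hO]
    have h2 : g.B O (d k) = -(g.A O (d k) + g.Cf (d k)) := by
      have := hrel k
      linarith
    rw [h2]
    simp only [ht]
    field_simp
    ring
  have hlim : Tendsto (fun k => ((ℓ (q k) : ℚ) : ℝ)) (hF : Filter ℕ)
      (𝓝 ((ℓ O : ℝ) + α * lam / (-β))) := by
    have h1 := (tendsto_const_nhds (x := (ℓ O : ℝ))).add ((hA.mul hl).div hC hβneg)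
    refine h1.congr' ?_
    filter_upwards [hNpos, hCne] with k hk1 hk2
    have hk2' : (g.Cf (d k) : ℝ) ≠ 0 := by exact_mod_cast hk2
    have hk1' : N k ≠ 0 := hk1.ne'
    have e1 : ℓ (q k) = ℓ O + g.A O (d k) / g.Cf (d k) * ℓ (d k) := by
      simp [hq, ht]
    rw [e1]
    simp only [Pi.div_apply]
    push_cast
    field_simp
  obtain ⟨R, hR⟩ := exists_rat_gt (|(ℓ O : ℝ) + α * lam / (-β)| + 1)
  have hbdd : ∀ᶠ k in (hF : Filter ℕ), |ℓ (q k)| ≤ R := by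
    refine ((Metric.tendsto_nhds.1 hlim) 1 one_pos).mono (fun k hk => ?_)
    rw [Real.dist_eq] at hk
    have h1 : |((ℓ (q k) : ℚ) : ℝ)| < R := by
      have h2 := abs_sub_abs_le_abs_sub ((ℓ (q k) : ℚ) : ℝ) ((ℓ O : ℝ) + α * lam / (-β))
      linarith
    have h3 : |ℓ (q k)| < R := by exact_mod_cast h1
    exact h3.le
  have hmem : ∀ᶠ k in (hF : Filter ℕ), ℓ (q k) ∈ Lv g ℓ ∩ {x | |x| ≤ R} := by
    filter_upwards [hCne, hbdd] with k hk1 hk2
    exact ⟨mem_Lv (hqval k hk1), hk2⟩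
  obtain ⟨c', -, hc'⟩ := eventually_const_of_finite (hc.loc R) hmem
  rcases exists_distinct_or_const q 4 (hCne.and hc') with ⟨q₀, hq₀⟩ | ⟨k, hkP, hk⟩
  · -- the third point is eventually fixed
    by_cases hqO : q₀ = O
    · -- the sequence lies on the tangent line at `O`
      apply hc.g1 (g.A O) (g.A O O) (hc.smooth O hO)
      have hne := eventually_ne_of_injective hc.inj (ℓ O)
      filter_upwards [hq₀, hCne, hne] with k hk1 hk2 hk3
      have hdk : d k ≠ 0 := by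
        intro h0
        apply hk3
        have : p k = O := sub_eq_zero.1 h0
        show ℓ (p k) = ℓ O
        rw [this]
      have h1 : t k • d k = 0 := by
        have : O + t k • d k = O := by
          have h2 : q k = O := by rw [hk1, hqO]
          exact h2
        simpa using this
      have h2 : t k = 0 := (smul_eq_zero.1 h1).resolve_right hdk
      have h3 : g.A O (d k) = 0 := by
        have : g.A O (d k) / g.Cf (d k) = 0 := h2
        exact (div_eq_zero_iff.1 this).resolve_right hk2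
      have h4 : g.A O (p k) - g.A O O = 0 := by
        rw [← map_sub]
        exact h3
      linarith
    · -- the sequence lies on a fixed chord through `O`
      have hw : q₀ - O ≠ 0 := sub_ne_zero.2 hqO
      obtain ⟨φ, hφ, hφw⟩ := exists_form_zero hdec h11 h12 h21 h22 hw
      apply hc.g1 φ (φ O) hφ
      filter_upwards [hq₀] with k hk1
      have h1 : t k • d k = q₀ - O := by
        rw [← hk1]
        simp [hq]
      have ht0 : t k ≠ 0 := by
        intro h0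
        rw [h0, zero_smul] at h1
        exact hw h1.symm
      have h2 : t k * φ (d k) = 0 := by
        have := congrArg φ h1
        rw [map_smul, hφw, smul_eq_mul] at this
        exact this
      have h3 := (mul_eq_zero.1 h2).resolve_left ht0
      have h4 : φ (p k) - φ O = 0 := by
        rw [← map_sub]
        exact h3
      linarith
  · -- four distinct points on a level line
    let K := LinearMap.ker ℓ
    have hKrank : finrank ℚ K = 1 := by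
      have h := Module.Dual.finrank_ker_add_one_of_ne_zero (f := ℓ) hc.ne
      have h' : finrank ℚ K + 1 = finrank ℚ V := h
      omega
    have hlev : ∀ i, ℓ (q (k i)) = c' := fun i => (hkP i).2
    have hzero : ∀ i, g.val (q (k i)) = 0 := fun i => hqval _ (hkP i).1
    have hwK : q (k 1) - q (k 0) ∈ K := by
      show ℓ (q (k 1) - q (k 0)) = 0
      rw [map_sub, hlev, hlev, sub_self]
    set w := q (k 1) - q (k 0) with hw
    have hw0 : (⟨w, hwK⟩ : K) ≠ 0 := by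
      intro h0
      have h1 : w = 0 := congrArg Subtype.val h0
      have h2 : q (k 1) = q (k 0) := sub_eq_zero.1 h1
      have := hk h2
      exact absurd this (by decide)
    have hgen := (finrank_eq_one_iff_of_nonzero' (⟨w, hwK⟩ : K) hw0).1 hKrank
    have hgen' : ∀ y, ℓ y = 0 → ∃ t : ℚ, t • w = y := by
      intro y hy
      obtain ⟨t, ht⟩ := hgen ⟨y, hy⟩
      exact ⟨t, congrArg Subtype.val ht⟩
    have hexτ : ∀ i, ∃ t : ℚ, t • w = q (k i) - q (k 0) := by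
      intro i
      apply hgen'
      rw [map_sub, hlev, hlev, sub_self]
    choose τ hτ using hexτ
    obtain ⟨P, hPdeg, hP⟩ := g.val_poly (q (k 0)) w
    have hroot : ∀ i, P.eval (τ i) = 0 := by
      intro i
      rw [← hP, hτ]
      simpa using hzero i
    have hτinj : Function.Injective τ := by
      intro i j hij
      apply hk
      have h1 := hτ i
      rw [hij, hτ j] at h1
      have h2 : q (k j) = q (k i) := sub_left_injective h1
      exact h2.symm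
    have hP0 : P = 0 := by
      apply Polynomial.eq_zero_of_natDegree_lt_card_of_eval_eq_zero P hτinj hroot
      simpa using Nat.lt_succ_of_le hPdeg
    apply hc.noH c'
    intro x hx
    obtain ⟨t', ht'⟩ := hgen' (x - q (k 0)) (by rw [map_sub, hx, hlev, sub_self])
    have h1 := hP t'
    rw [ht', hP0] at h1
    simpa using h1

/-- The contradiction in dimension two. -/
theorem Ctx.false_of_two (hc : Ctx g ℓ p) (hn : finrank ℚ V = 2) : False := by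
  classical
  let b : Basis (Fin 2) ℚ V := Module.finBasisOfFinrankEq ℚ V hn
  set e₁ := b 0 with he₁
  set e₂ := b 1 with he₂
  set c₁ : V →ₗ[ℚ] ℚ := b.coord 0 with hc₁
  set c₂ : V →ₗ[ℚ] ℚ := b.coord 1 with hc₂
  have hdec : ∀ x, x = c₁ x • e₁ + c₂ x • e₂ := by
    intro x
    have h1 := b.sum_repr x
    rw [Fin.sum_univ_two] at h1
    exact h1.symm
  have h11 : c₁ e₁ = 1 := by simp [hc₁, he₁]
  have h12 : c₁ e₂ = 0 := by simp [hc₁, he₂]
  have h21 : c₂ e₁ = 0 := by simp [hc₂, he₁]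
  have h22 : c₂ e₂ = 1 := by simp [hc₂, he₂]
  obtain ⟨N, r, s, hfar, hrs, hr, hs⟩ := hc.exists_limit hdec
  have hβ : ∀ O, g.val O = 0 →
      r ^ 2 * (g.B O e₁ : ℝ) + 2 * r * s * (g.Bf O e₁ e₂ : ℝ) + s ^ 2 * (g.B O e₂ : ℝ) = 0 :=
    fun O hO => hc.third_point hn hdec h11 h12 h21 h22 hfar hr hs hO
  -- the form in the point variable
  set X : ℝ := r ^ 2 * (g.T e₁ e₁ e₁ : ℝ) + 2 * r * s * (g.T e₁ e₁ e₂ : ℝ) +
    s ^ 2 * (g.T e₁ e₂ e₂ : ℝ) with hX
  set Y : ℝ := r ^ 2 * (g.T e₂ e₁ e₁ : ℝ) + 2 * r * s * (g.T e₂ e₁ e₂ : ℝ) +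
    s ^ 2 * (g.T e₂ e₂ e₂ : ℝ) with hY
  set ρ : ℝ := r ^ 2 * (g.Q e₁ e₁ : ℝ) + 2 * r * s * (g.Q e₁ e₂ : ℝ) +
    s ^ 2 * (g.Q e₂ e₂ : ℝ) with hρ
  have hTdec : ∀ x y z, g.T x y z = c₁ x * g.T e₁ y z + c₂ x * g.T e₂ y z := by
    intro x y z
    conv_lhs => rw [hdec x]
    simp
  have hform : ∀ x, r ^ 2 * (g.B x e₁ : ℝ) + 2 * r * s * (g.Bf x e₁ e₂ : ℝ) +
      s ^ 2 * (g.B x e₂ : ℝ) = ρ + 3 * ((c₁ x : ℝ) * X + (c₂ x : ℝ) * Y) := by
    intro x
    rw [g.B_eq, g.B_eq, g.Bf_apply, hTdec x e₁ e₁, hTdec x e₁ e₂, hTdec x e₂ e₂, hρ, hX, hY]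
    push_cast
    ring
  -- three non collinear points among the zeros
  have hw₁ : p 1 - p 0 ≠ 0 := by
    intro h0
    have h1 : p 1 = p 0 := sub_eq_zero.1 h0
    have := hc.inj (show ℓ (p 1) = ℓ (p 0) by rw [h1])
    exact absurd this (by decide)
  set w₁ := p 1 - p 0 with hw₁def
  set φ : V →ₗ[ℚ] ℚ := c₂ w₁ • c₁ - c₁ w₁ • c₂ with hφ
  have hφ0 : φ ≠ 0 := by
    intro h0
    apply hw₁
    have h1 := LinearMap.congr_fun h0 e₁
    have h2 := LinearMap.congr_fun h0 e₂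
    simp [hφ, h11, h12, h21, h22] at h1 h2
    rw [hdec w₁, h1, h2]
    simp
  obtain ⟨k₂, hk₂⟩ : ∃ k₂, φ (p k₂) ≠ φ (p 0) := by
    by_contra hcon
    push Not at hcon
    exact hc.g1 φ (φ (p 0)) hφ0 (Filter.Eventually.of_forall hcon)
  set w₂ := p k₂ - p 0 with hw₂def
  have hdet : (c₂ w₁ : ℝ) * c₁ w₂ - c₁ w₁ * c₂ w₂ ≠ 0 := by
    have h1 : φ w₂ ≠ 0 := by
      rw [hw₂def, map_sub]
      exact sub_ne_zero.2 hk₂
    have h2 : φ w₂ = c₂ w₁ * c₁ w₂ - c₁ w₁ * c₂ w₂ := by simp [hφ]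
    rw [h2] at h1
    exact_mod_cast h1
  have hz0 := hβ _ (hc.mem 0)
  have hz1 := hβ _ (hc.mem 1)
  have hz2 := hβ _ (hc.mem k₂)
  rw [hform] at hz0 hz1 hz2
  have hE1 : (c₁ w₁ : ℝ) * X + c₂ w₁ * Y = 0 := by
    rw [hw₁def]
    simp only [map_sub]
    push_cast
    linarith
  have hE2 : (c₁ w₂ : ℝ) * X + c₂ w₂ * Y = 0 := by
    rw [hw₂def]
    simp only [map_sub]
    push_cast
    linarith
  have hX0 : X = 0 := by
    have h1 : ((c₂ w₁ : ℝ) * c₁ w₂ - c₁ w₁ * c₂ w₂) * X = 0 := by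
      linear_combination (c₂ w₁ : ℝ) * hE2 * 0 + (-(c₂ w₂ : ℝ)) * hE1 + (c₂ w₁ : ℝ) * hE2
    exact (mul_eq_zero.1 h1).resolve_left hdet
  have hY0 : Y = 0 := by
    have h1 : ((c₂ w₁ : ℝ) * c₁ w₂ - c₁ w₁ * c₂ w₂) * Y = 0 := by
      linear_combination (c₁ w₂ : ℝ) * hE1 - (c₁ w₁ : ℝ) * hE2
    exact (mul_eq_zero.1 h1).resolve_left hdet
  have hρ0 : ρ = 0 := by
    rw [hX0, hY0] at hz0
    linarith
  have hall : ∀ x, r ^ 2 * (g.B x e₁ : ℝ) + 2 * r * s * (g.Bf x e₁ e₂ : ℝ) +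
      s ^ 2 * (g.B x e₂ : ℝ) = 0 := by
    intro x
    rw [hform, hρ0, hX0, hY0]
    ring
  -- the coefficients of the leading form
  set a := g.T e₁ e₁ e₁ with ha
  set b' := g.T e₁ e₁ e₂ with hb'
  set c := g.T e₁ e₂ e₂ with hc'
  set e := g.T e₂ e₂ e₂ with he
  have hT211 : g.T e₂ e₁ e₁ = b' := by rw [hb', g.T_cycle' e₁ e₁ e₂]
  have hT212 : g.T e₂ e₁ e₂ = c := by rw [hc', g.Ts1 e₂ e₁ e₂]
  have hCf : ∀ y₁ y₂ : ℚ, g.Cf (y₁ • e₁ + y₂ • e₂) =
      y₁ * (y₁ ^ 2 * a + 2 * y₁ * y₂ * b' + y₂ ^ 2 * c) +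
      y₂ * (y₁ ^ 2 * b' + 2 * y₁ * y₂ * c + y₂ ^ 2 * e) := by
    intro y₁ y₂
    simp only [Cubic.Cf, map_add, map_smul, LinearMap.add_apply, LinearMap.smul_apply, smul_eq_mul]
    have t1 : g.T e₁ e₁ e₁ = a := rfl
    have t2 : g.T e₁ e₁ e₂ = b' := rfl
    have t3 : g.T e₁ e₂ e₂ = c := rfl
    have t4 : g.T e₂ e₂ e₂ = e := rfl
    have t5 : g.T e₁ e₂ e₁ = b' := g.Ts2 e₁ e₂ e₁
    have t6 : g.T e₂ e₂ e₁ = c := (g.Ts2 e₂ e₂ e₁).trans hT212
    simp only [t1, t2, t3, t4, t5, t6, hT211, hT212]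
    ring
  have hne : a ≠ 0 ∨ b' ≠ 0 ∨ c ≠ 0 ∨ e ≠ 0 := by
    by_contra hcon
    push Not at hcon
    obtain ⟨d, hd⟩ := hc.Cne
    apply hd
    rw [hdec d, hCf, hcon.1, hcon.2.1, hcon.2.2.1, hcon.2.2.2]
    ring
  have hE1' : (a : ℝ) * r ^ 2 + 2 * b' * (r * s) + c * s ^ 2 = 0 := by
    have : X = (a : ℝ) * r ^ 2 + 2 * b' * (r * s) + c * s ^ 2 := by
      rw [hX]
      ring
    rw [← this]
    exact hX0
  have hE2' : (b' : ℝ) * r ^ 2 + 2 * c * (r * s) + e * s ^ 2 = 0 := by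
    have : Y = (b' : ℝ) * r ^ 2 + 2 * c * (r * s) + e * s ^ 2 := by
      rw [hY, hT211, hT212]
      ring
    rw [← this]
    exact hY0
  obtain ⟨y₁, y₂, hy, hry⟩ := rational_direction a b' c e hne r s hE1' hE2'
  -- proportionality of the rational direction with the limit direction
  obtain ⟨μ, hμ₁, hμ₂⟩ : ∃ μ : ℝ, (y₁ : ℝ) = μ * r ∧ (y₂ : ℝ) = μ * s := by
    rcases hrs with h | h
    · refine ⟨y₁ / r, by field_simp, ?_⟩
      field_simp
      linarith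
    · refine ⟨y₂ / s, ?_, by field_simp⟩
      field_simp
      linarith
  set w := y₁ • e₁ + y₂ • e₂ with hw
  have hw0 : w ≠ 0 := by
    intro h0
    have h1 : c₁ w = y₁ := by simp [hw, h11, h12]
    have h2 : c₂ w = y₂ := by simp [hw, h21, h22]
    rw [h0, map_zero] at h1 h2
    rcases hy with h | h
    · exact h h1.symm
    · exact h h2.symm
  have hBw : ∀ x, g.B x w = 0 := by
    intro x
    have h1 := hall x
    have h2 : ((g.B x w : ℚ) : ℝ) = μ ^ 2 * (r ^ 2 * (g.B x e₁ : ℝ) +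
        2 * r * s * (g.Bf x e₁ e₂ : ℝ) + s ^ 2 * (g.B x e₂ : ℝ)) := by
      rw [hw, B_two]
      push_cast
      rw [hμ₁, hμ₂]
      ring
    rw [h1, mul_zero] at h2
    exact_mod_cast h2
  have hCw : g.Cf w = 0 := by
    have h1 : ((g.Cf w : ℚ) : ℝ) = μ ^ 3 * (r * (r ^ 2 * a + 2 * r * s * b' + s ^ 2 * c) +
        s * (r ^ 2 * b' + 2 * r * s * c + s ^ 2 * e)) := by
      rw [hw, hCf]
      push_cast
      rw [hμ₁, hμ₂]
      ring
    have h2 : (r ^ 2 * (a : ℝ) + 2 * r * s * b' + s ^ 2 * c) = 0 := by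
      linear_combination hE1'
    have h3 : (r ^ 2 * (b' : ℝ) + 2 * r * s * c + s ^ 2 * e) = 0 := by
      linear_combination hE2'
    rw [h2, h3] at h1
    have h4 : ((g.Cf w : ℚ) : ℝ) = 0 := by
      rw [h1]
      ring
    exact_mod_cast h4
  by_cases hlw : ℓ w = 0
  · exact hc.noW w hw0 hlw hCw hBw
  · exact hc.noV w hlw hCw hBw

end ctx

end Vale.Agent.Lib.P027
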