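import Vale.Agent.Lib.P027.Cubic

/-!
Elementary exclusions: lines, singular points, quadratic functions, level hyperplanes,
and directions along which the cubic function is linear.
-/

namespace Vale.Agent.Lib.P027

open Filter

variable {V : Type} [AddCommGroup V] [Module ℚ V]

/-- The set of values of `ℓ` on rational zeros of `g`. -/
def Lv (g : Cubic V) (ℓ : V →ₗ[ℚ] ℚ) : Set ℚ := ℓ '' {x | g.val x = 0}

theorem mem_Lv {g : Cubic V} {ℓ : V →ₗ[ℚ] ℚ} {x : V} (h : g.val x = 0) : ℓ x ∈ Lv g ℓ :=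
  ⟨x, h, rfl⟩

/-- A line of zeros not parallel to the level sets makes every rational a value. -/
theorem no_line {g : Cubic V} {ℓ : V →ₗ[ℚ] ℚ} (hL : LocFin (Lv g ℓ)) {x d : V} (hd : ℓ d ≠ 0)
    (h : ∀ t : ℚ, g.val (x + t • d) = 0) : False := by
  apply not_locFin_univ
  refine hL.mono ?_
  intro c _
  refine ⟨x + ((c - ℓ x) / ℓ d) • d, h _, ?_⟩
  simp only [map_add, map_smul, smul_eq_mul]
  field_simp
  ring

/-- If on lines through a zero `O` the residual equation has degree one, there are at most two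
values. -/
theorem two_level {g : Cubic V} {ℓ : V →ₗ[ℚ] ℚ} (hL : LocFin (Lv g ℓ)) {O : V} (hO : g.val O = 0)
    {f h : V → ℚ} (hf : PolyLine f) (hh : PolyLine h)
    (hline : ∀ (d : V) (t : ℚ), t ≠ 0 → (g.val (O + t • d) = 0 ↔ f d + t * h d = 0)) :
    (Lv g ℓ).Finite := by
  have hJ : LocFin {x | ℓ O - x ∈ Lv g ℓ} :=
    hL.of_affine (ℓ O) (-1) (by norm_num) (fun x hx => by
      have : ℓ O + -1 * x = ℓ O - x := by ring
      rw [this]
      exact hx)
  have hmem : ∀ x ∈ (⊤ : Submodule ℚ V), h x ≠ 0 →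
      (f x * ℓ x) / h x ∈ {x | ℓ O - x ∈ Lv g ℓ} := by
    intro d _ hd
    show ℓ O - (f d * ℓ d) / h d ∈ Lv g ℓ
    by_cases hfd : f d = 0
    · simp only [hfd, zero_mul, zero_div, sub_zero]
      exact mem_Lv hO
    · have ht : -(f d / h d) ≠ 0 := neg_ne_zero.2 (div_ne_zero hfd hd)
      have h1 : g.val (O + (-(f d / h d)) • d) = 0 := by
        rw [hline d _ ht]
        field_simp
        ring
      have h2 := mem_Lv (ℓ := ℓ) h1
      have h3 : ℓ (O + (-(f d / h d)) • d) = ℓ O - (f d * ℓ d) / h d := by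
        simp only [map_add, map_smul, smul_eq_mul]
        field_simp
        ring
      rwa [h3] at h2
  have hkey : ∀ y, g.val y = 0 → h (y - O) = 0 → ℓ y = ℓ O := by
    intro y hy hd
    have h1 : g.val (O + (1 : ℚ) • (y - O)) = 0 := by simpa using hy
    have h2 := (hline (y - O) 1 one_ne_zero).1 h1
    rw [hd] at h2
    have hf0 : f (y - O) = 0 := by simpa using h2
    have h3 : ∀ t : ℚ, g.val (O + t • (y - O)) = 0 := by
      intro t
      by_cases ht : t = 0
      · simpa [ht] using hO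
      · rw [hline _ t ht, hf0, hd]
        simp
    by_contra hne
    have hd' : ℓ (y - O) ≠ 0 := by
      rw [map_sub]
      exact sub_ne_zero.2 hne
    exact no_line hL hd' h3
  by_cases hd₀ : ∃ d₀, h d₀ ≠ 0
  · obtain ⟨d₀, hd₀⟩ := hd₀
    refine (Set.toFinite {ℓ O, ℓ O + (- ((f d₀ * ℓ d₀) / h d₀))}).subset ?_
    rintro _ ⟨y, hy, rfl⟩
    have hy' : g.val y = 0 := hy
    by_cases hd : h (y - O) = 0
    · left
      exact hkey y hy' hd
    · right
      have hc := line_const hJ (hf.mul (PolyLine.linear ℓ)) hh hmem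
        (Submodule.mem_top (x := d₀)) (Submodule.mem_top (x := y - O)) hd₀ hd
      have h1 : g.val (O + (1 : ℚ) • (y - O)) = 0 := by simpa using hy'
      have h2 := (hline (y - O) 1 one_ne_zero).1 h1
      have h3 : f (y - O) = - h (y - O) := by linarith
      have h4 : (f (y - O) * ℓ (y - O)) / h (y - O) = - ℓ (y - O) := by
        rw [h3]
        field_simp
      show ℓ y = ℓ O + - ((f d₀ * ℓ d₀) / h d₀)
      have hc' : (f d₀ * ℓ d₀) / h d₀ = - ℓ (y - O) := by
        rw [← h4]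
        exact hc
      rw [hc', map_sub]
      ring
  · push Not at hd₀
    refine (Set.finite_singleton (ℓ O)).subset ?_
    rintro _ ⟨y, hy, rfl⟩
    exact hkey y hy (hd₀ _)

/-- Points of infinite value sets are smooth. -/
theorem smooth_of {g : Cubic V} {ℓ : V →ₗ[ℚ] ℚ} (hL : LocFin (Lv g ℓ))
    (hinf : (Lv g ℓ).Infinite) {O : V} (hO : g.val O = 0) : g.A O ≠ 0 := by
  intro hA
  apply hinf
  refine two_level hL hO (g.polyLine_B O) g.polyLine_Cf ?_
  intro d t ht
  have hA' : g.A O d = 0 := by rw [hA]; rfl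
  rw [g.val_line, hO, hA']
  constructor
  · intro h
    have : t ^ 2 * (g.B O d + t * g.Cf d) = 0 := by linear_combination h
    exact (mul_eq_zero.1 this).resolve_left (pow_ne_zero 2 ht)
  · intro h
    linear_combination t ^ 2 * h

/-- The leading form of a cubic with infinite value set does not vanish. -/
theorem Cf_ne_of {g : Cubic V} {ℓ : V →ₗ[ℚ] ℚ} (hL : LocFin (Lv g ℓ))
    (hinf : (Lv g ℓ).Infinite) : ∃ d, g.Cf d ≠ 0 := by
  by_contra hcon
  push Not at hcon
  obtain ⟨_, O, hO, -⟩ := hinf.nonempty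
  have hO' : g.val O = 0 := hO
  apply hinf
  refine two_level hL hO' (PolyLine.linear (g.A O)) (g.polyLine_B O) ?_
  intro d t ht
  rw [g.val_line, hO', hcon d]
  constructor
  · intro h
    have : t * (g.A O d + t * g.B O d) = 0 := by linear_combination h
    exact (mul_eq_zero.1 this).resolve_left ht
  · intro h
    linear_combination t * h

/-- A cubic cannot vanish on a whole level hyperplane. -/
theorem no_level {g : Cubic V} {ℓ : V →ₗ[ℚ] ℚ} (hL : LocFin (Lv g ℓ))
    (hinf : (Lv g ℓ).Infinite) {c : ℚ} (hH : ∀ x, ℓ x = c → g.val x = 0) : False := by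
  obtain ⟨O, hO, hOc⟩ : ∃ O, g.val O = 0 ∧ ℓ O ≠ c := by
    by_contra hcon
    push Not at hcon
    apply hinf
    refine (Set.finite_singleton c).subset ?_
    rintro _ ⟨y, hy, rfl⟩
    exact hcon y hy
  obtain ⟨d₀, hd₀⟩ := Cf_ne_of hL hinf
  set θ := ℓ O - c with hθ
  have hθ0 : θ ≠ 0 := sub_ne_zero.2 hOc
  have hJ : LocFin {x | ℓ O - x / θ ∈ Lv g ℓ} :=
    hL.of_affine (ℓ O) (-(1 / θ)) (by simpa using hθ0) (fun x hx => by
      have : ℓ O + -(1 / θ) * x = ℓ O - x / θ := by field_simp; ring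
      rw [this]
      exact hx)
  have hfirst : ∀ d, ℓ d ≠ 0 →
      g.A O d + (-θ / ℓ d) * g.B O d + (-θ / ℓ d) ^ 2 * g.Cf d = 0 := by
    intro d hd
    have hlev : ℓ (O + (-θ / ℓ d) • d) = c := by
      simp only [map_add, map_smul, smul_eq_mul, hθ]
      field_simp
      ring
    have h1 := hH _ hlev
    rw [g.val_line, hO] at h1
    have ht : -θ / ℓ d ≠ 0 := div_ne_zero (neg_ne_zero.2 hθ0) hd
    have : (-θ / ℓ d) * (g.A O d + (-θ / ℓ d) * g.B O d + (-θ / ℓ d) ^ 2 * g.Cf d) = 0 := by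
      linear_combination h1
    exact (mul_eq_zero.1 this).resolve_left ht
  have hmem : ∀ x ∈ (⊤ : Submodule ℚ V), g.Cf x ≠ 0 →
      (ℓ x * ℓ x * g.A O x) / g.Cf x ∈ {x | ℓ O - x / θ ∈ Lv g ℓ} := by
    intro d _ hd
    show ℓ O - ((ℓ d * ℓ d * g.A O d) / g.Cf d) / θ ∈ Lv g ℓ
    by_cases hld : ℓ d = 0
    · simp only [hld, zero_mul, zero_div, sub_zero]
      exact mem_Lv hO
    · have h1 := hfirst d hld
      set t₂ := - (g.A O d * ℓ d) / (g.Cf d * θ) with ht₂
      have h2 : g.val (O + t₂ • d) = 0 := by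
        rw [g.val_line, hO]
        have h3 : g.B O d = ((-(θ / ℓ d)) ^ 2 * g.Cf d + g.A O d) * (ℓ d / θ) := by
          have h5 : (-θ / ℓ d) * g.B O d = -(g.A O d + (-θ / ℓ d) ^ 2 * g.Cf d) := by
            linear_combination h1
          field_simp
          field_simp at h5
          linear_combination (-1 : ℚ) * h5
        rw [h3, ht₂]
        field_simp
        ring
      have h6 := mem_Lv (ℓ := ℓ) h2
      have h7 : ℓ (O + t₂ • d) = ℓ O - ((ℓ d * ℓ d * g.A O d) / g.Cf d) / θ := by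
        simp only [map_add, map_smul, smul_eq_mul, ht₂]
        field_simp
        ring
      rwa [h7] at h6
  set κ := (ℓ d₀ * ℓ d₀ * g.A O d₀) / g.Cf d₀ with hκ
  apply hinf
  refine (Set.toFinite {c, ℓ O, ℓ O + (- (κ / θ))}).subset ?_
  rintro _ ⟨y, hy, rfl⟩
  have hy' : g.val y = 0 := hy
  by_cases h1 : ℓ y = c
  · exact Or.inl h1
  by_cases h2 : ℓ y = ℓ O
  · exact Or.inr (Or.inl h2)
  refine Or.inr (Or.inr ?_)
  set d := y - O with hd
  have hyd : y = O + d := by rw [hd]; abel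
  have hld : ℓ d ≠ 0 := by
    rw [hd, map_sub]
    exact sub_ne_zero.2 h2
  have hfst := hfirst d hld
  have hsnd : g.A O d + g.B O d + g.Cf d = 0 := by
    have := g.val_add O d
    rw [← hyd, hy', hO] at this
    linarith
  set t₁ := -θ / ℓ d with ht₁
  have ht₁1 : t₁ - 1 ≠ 0 := by
    intro h
    apply h1
    have : t₁ = 1 := by linarith
    rw [ht₁, div_eq_one_iff_eq hld] at this
    have h8 : ℓ y = ℓ O + ℓ d := by rw [hyd, map_add]
    rw [h8, ← this, hθ]
    ring
  have hB : (t₁ - 1) * (g.B O d + (t₁ + 1) * g.Cf d) = 0 := by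
    linear_combination hfst - hsnd
  have hB' : g.B O d = - ((t₁ + 1) * g.Cf d) := by
    have := (mul_eq_zero.1 hB).resolve_left ht₁1
    linarith
  have hA : g.A O d = t₁ * g.Cf d := by
    rw [hB'] at hsnd
    linarith
  have hC : g.Cf d ≠ 0 := by
    intro hC0
    apply no_line hL hld (x := O) (d := d)
    intro t
    rw [g.val_line, hO, hA, hB', hC0]
    ring
  have hc := line_const hJ (((PolyLine.linear ℓ).mul (PolyLine.linear ℓ)).mul
    (PolyLine.linear (g.A O))) g.polyLine_Cf hmem (Submodule.mem_top (x := d₀))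
    (Submodule.mem_top (x := d)) hd₀ hC
  have h9 : (ℓ d * ℓ d * g.A O d) / g.Cf d = - (θ * ℓ d) := by
    rw [hA, ht₁]
    field_simp
  show ℓ y = ℓ O + - (κ / θ)
  have hκ' : κ = -(θ * ℓ d) := by rw [hκ, ← h9]; exact hc
  rw [hκ']
  have h8 : ℓ y = ℓ O + ℓ d := by rw [hyd, map_add]
  rw [h8]
  field_simp

/-- Direction along which the function is linear, not parallel to the level sets: at most one
value. -/
theorem no_dirV {g : Cubic V} {ℓ : V →ₗ[ℚ] ℚ} (hL : LocFin (Lv g ℓ)) {v : V} (hv : ℓ v ≠ 0)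
    (hC : g.Cf v = 0) (hB : ∀ x, g.B x v = 0) : (Lv g ℓ).Finite := by
  have hline : ∀ x (t : ℚ), g.val (x + t • v) = g.val x + t * g.A x v := by
    intro x t
    rw [g.val_line, hB, hC]
    ring
  have hJ : LocFin {x | - x ∈ Lv g ℓ} :=
    hL.of_affine 0 (-1) (by norm_num) (fun x hx => by simpa using hx)
  let K := LinearMap.ker ℓ
  have hmem : ∀ x ∈ K, g.A x v ≠ 0 →
      (g.val x * ℓ v) / g.A x v ∈ {x | - x ∈ Lv g ℓ} := by
    intro x hx hA
    have hx0 : ℓ x = 0 := hx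
    have h1 : g.val (x + (-(g.val x / g.A x v)) • v) = 0 := by
      rw [hline]
      field_simp
      ring
    have h2 := mem_Lv (ℓ := ℓ) h1
    have h3 : ℓ (x + (-(g.val x / g.A x v)) • v) = - ((g.val x * ℓ v) / g.A x v) := by
      simp only [map_add, map_smul, smul_eq_mul, hx0]
      field_simp
      ring
    show - ((g.val x * ℓ v) / g.A x v) ∈ Lv g ℓ
    rwa [h3] at h2
  have hdec : ∀ y, g.val y = 0 →
      (y - (ℓ y / ℓ v) • v ∈ K ∧ g.A (y - (ℓ y / ℓ v) • v) v ≠ 0 ∧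
        (g.val (y - (ℓ y / ℓ v) • v) * ℓ v) / g.A (y - (ℓ y / ℓ v) • v) v = - ℓ y) := by
    intro y hy
    set x := y - (ℓ y / ℓ v) • v with hx
    have hxK : x ∈ K := by
      show ℓ x = 0
      rw [hx, map_sub, map_smul, smul_eq_mul]
      field_simp
      ring
    have hyx : y = x + (ℓ y / ℓ v) • v := by rw [hx]; abel
    have h1 := hline x (ℓ y / ℓ v)
    rw [← hyx, hy] at h1
    have hA : g.A x v ≠ 0 := by
      intro hA0
      rw [hA0] at h1
      have hx0 : g.val x = 0 := by linarith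
      apply no_line hL hv (x := x) (d := v)
      intro t
      rw [hline, hx0, hA0]
      ring
    refine ⟨hxK, hA, ?_⟩
    have h2 : g.val x = - ((ℓ y / ℓ v) * g.A x v) := by linarith
    rw [h2]
    field_simp
  by_cases hex : ∃ y, g.val y = 0
  · obtain ⟨y₀, hy₀⟩ := hex
    refine (Set.finite_singleton (ℓ y₀)).subset ?_
    rintro _ ⟨y, hy, rfl⟩
    have hy' : g.val y = 0 := hy
    obtain ⟨h1, h2, h3⟩ := hdec y hy'
    obtain ⟨h1', h2', h3'⟩ := hdec y₀ hy₀
    have hc := line_const hJ (g.polyLine_val.mul (PolyLine.const (ℓ v))) (g.polyLine_A_point v)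
      hmem h1 h1' h2 h2'
    rw [h3, h3'] at hc
    show ℓ y = ℓ y₀
    linarith
  · push Not at hex
    refine Set.finite_empty.subset ?_
    rintro _ ⟨y, hy, rfl⟩
    exact hex y hy

/-- Statement of the main finiteness property on a given space. -/
def FinProp (V : Type) [AddCommGroup V] [Module ℚ V] : Prop :=
  ∀ (g : Cubic V) (ℓ : V →ₗ[ℚ] ℚ), ℓ ≠ 0 → LocFin (Lv g ℓ) → (Lv g ℓ).Finite

/-- Restriction to a proper affine subspace using the property on the subspace. -/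
theorem restrict_finite (IH : ∀ W : Submodule ℚ V, W ≠ ⊤ → FinProp W) {g : Cubic V}
    {ℓ : V →ₗ[ℚ] ℚ} (hL : LocFin (Lv g ℓ)) (x₀ : V) {W : Submodule ℚ V} (hW : W ≠ ⊤)
    (hℓ : ℓ.domRestrict W ≠ 0) : (ℓ '' {y | y ∈ W ∧ g.val (x₀ + y) = 0}).Finite := by
  have hL' : LocFin (Lv (g.shift x₀ W) (ℓ.domRestrict W)) := by
    refine hL.of_affine (ℓ x₀) 1 one_ne_zero ?_
    rintro _ ⟨y, hy, rfl⟩
    have hy' : (g.shift x₀ W).val y = 0 := hy
    rw [g.shift_val] at hy'
    have h1 := mem_Lv (ℓ := ℓ) hy'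
    have h2 : ℓ (x₀ + y) = ℓ x₀ + 1 * (ℓ.domRestrict W) y := by
      simp [LinearMap.domRestrict_apply]
    rwa [h2] at h1
  have hfin := IH W hW (g.shift x₀ W) (ℓ.domRestrict W) hℓ hL'
  refine hfin.subset ?_
  rintro _ ⟨y, ⟨hyW, hy⟩, rfl⟩
  refine ⟨⟨y, hyW⟩, ?_, rfl⟩
  show (g.shift x₀ W).val ⟨y, hyW⟩ = 0
  rw [g.shift_val]
  exact hy

/-- A direction in the level sets along which the function is linear cannot exist. -/
theorem no_dirW [FiniteDimensional ℚ V] (IH : ∀ W : Submodule ℚ V, W ≠ ⊤ → FinProp W)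
    {g : Cubic V} {ℓ : V →ₗ[ℚ] ℚ} (hℓ : ℓ ≠ 0) (hL : LocFin (Lv g ℓ)) {w : V} (hw0 : w ≠ 0)
    (hw : ℓ w = 0) (hC : g.Cf w = 0) (hB : ∀ x, g.B x w = 0) : (Lv g ℓ).Finite := by
  have hline : ∀ x (t : ℚ), g.val (x + t • w) = g.val x + t * g.A x w := by
    intro x t
    rw [g.val_line, hB, hC]
    ring
  obtain ⟨e, he⟩ : ∃ e, ℓ e ≠ 0 := by
    by_contra hcon
    push Not at hcon
    exact hℓ (LinearMap.ext hcon)
  by_cases hA : ∃ p₀, g.A p₀ w ≠ 0
  · -- cofinitely many values would be attained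
    exfalso
    obtain ⟨p₀, hp₀⟩ := hA
    obtain ⟨P, hP⟩ := g.polyLine_A_point w p₀ e
    have hP0 : P ≠ 0 := by
      rintro rfl
      have := hP 0
      simp only [zero_smul, add_zero, Polynomial.eval_zero] at this
      exact hp₀ this
    have hfin : {s : ℚ | P.IsRoot s}.Finite := Polynomial.finite_setOfPred_isRoot hP0
    refine not_locFin_of_cofinite ((fun s => ℓ p₀ + s * ℓ e) '' {s : ℚ | P.IsRoot s})
      (hfin.image _) ?_ hL
    intro x hx
    set s := (x - ℓ p₀) / ℓ e with hs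
    have hxs : ℓ p₀ + s * ℓ e = x := by
      rw [hs]
      field_simp
      ring
    have hroot : P.eval s ≠ 0 := fun h0 => hx ⟨s, h0, hxs⟩
    have hAs : g.A (p₀ + s • e) w ≠ 0 := by
      have := hP s
      rw [show g.A (p₀ + s • e) w = P.eval s from this]
      exact hroot
    set q := p₀ + s • e with hq
    have h1 : g.val (q + (-(g.val q / g.A q w)) • w) = 0 := by
      rw [hline]
      field_simp
      ring
    have h2 := mem_Lv (ℓ := ℓ) h1
    have h3 : ℓ (q + (-(g.val q / g.A q w)) • w) = x := by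
      simp only [map_add, map_smul, smul_eq_mul, hw, hq]
      rw [← hxs]
      ring
    rwa [h3] at h2
  · push Not at hA
    obtain ⟨ψ, hψ⟩ : ∃ ψ : V →ₗ[ℚ] ℚ, ψ w ≠ 0 := by
      by_contra hcon
      push Not at hcon
      exact hw0 ((Module.forall_dual_apply_eq_zero_iff ℚ w).1 hcon)
    let W := LinearMap.ker ψ
    have hW : W ≠ ⊤ := by
      intro h
      apply hψ
      have : w ∈ W := by rw [h]; exact Submodule.mem_top
      exact this
    have hdec : ∀ y, y - (ψ y / ψ w) • w ∈ W := by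
      intro y
      show ψ (y - (ψ y / ψ w) • w) = 0
      rw [map_sub, map_smul, smul_eq_mul]
      field_simp
      ring
    have hℓW : ℓ.domRestrict W ≠ 0 := by
      intro h0
      apply he
      have h1 := LinearMap.congr_fun h0 ⟨_, hdec e⟩
      simp only [LinearMap.domRestrict_apply, LinearMap.zero_apply, map_sub, map_smul, hw,
        smul_eq_mul, mul_zero, sub_zero] at h1
      exact h1
    have hfin := restrict_finite IH hL 0 hW hℓW
    refine hfin.subset ?_
    rintro _ ⟨y, hy, rfl⟩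
    have hy' : g.val y = 0 := hy
    refine ⟨y - (ψ y / ψ w) • w, ⟨hdec y, ?_⟩, ?_⟩
    · rw [zero_add, sub_eq_add_neg, ← neg_smul, hline, hA, hy']
      ring
    · simp [hw]

/-- The data of a sequence of zeros with injective values along which all the exclusions hold. -/
structure Ctx (g : Cubic V) (ℓ : V →ₗ[ℚ] ℚ) (p : ℕ → V) : Prop where
  loc : LocFin (Lv g ℓ)
  inf : (Lv g ℓ).Infinite
  ne : ℓ ≠ 0
  inj : Function.Injective (fun k => ℓ (p k))
  mem : ∀ k, g.val (p k) = 0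
  noLine : ∀ x d, ℓ d ≠ 0 → ¬ ∀ t : ℚ, g.val (x + t • d) = 0
  smooth : ∀ x, g.val x = 0 → g.A x ≠ 0
  Cne : ∃ d, g.Cf d ≠ 0
  noH : ∀ c, ¬ ∀ x, ℓ x = c → g.val x = 0
  noV : ∀ v, ℓ v ≠ 0 → g.Cf v = 0 → ¬ ∀ x, g.B x v = 0
  noW : ∀ w, w ≠ 0 → ℓ w = 0 → g.Cf w = 0 → ¬ ∀ x, g.B x w = 0
  g1 : ∀ (φ : V →ₗ[ℚ] ℚ) (b : ℚ), φ ≠ 0 → ¬ ∀ᶠ k in (hF : Filter ℕ), φ (p k) = b

/-- Construction of the sequence. -/
theorem exists_ctx [FiniteDimensional ℚ V] (IH : ∀ W : Submodule ℚ V, W ≠ ⊤ → FinProp W)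
    {g : Cubic V} {ℓ : V →ₗ[ℚ] ℚ} (hℓ : ℓ ≠ 0) (hL : LocFin (Lv g ℓ))
    (hinf : (Lv g ℓ).Infinite) : ∃ p, Ctx g ℓ p := by
  classical
  let e := hinf.natEmbedding
  have hex : ∀ k, ∃ x, g.val x = 0 ∧ ℓ x = (e k : ℚ) := fun k => by
    obtain ⟨x, hx, hxe⟩ := (e k).2
    exact ⟨x, hx, hxe⟩
  choose p hp hpe using hex
  have hinj : Function.Injective (fun k => ℓ (p k)) := by
    intro a b hab
    simp only [hpe] at hab
    exact e.injective (Subtype.ext hab)
  refine ⟨p, hL, hinf, hℓ, hinj, hp, fun x d hd h => no_line hL hd h, fun x hx => smooth_of hL hinf hx,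
    Cf_ne_of hL hinf, fun c h => no_level hL hinf h,
    fun v hv hC hB => hinf (no_dirV hL hv hC hB),
    fun w hw0 hw hC hB => hinf (no_dirW IH hℓ hL hw0 hw hC hB), ?_⟩
  intro φ b hφ hev
  obtain ⟨k₀, hk₀⟩ := hev.exists
  let W := LinearMap.ker φ
  have hW : W ≠ ⊤ := fun h => hφ (LinearMap.ker_eq_top.1 h)
  have hmemW : ∀ k, φ (p k) = b → p k - p k₀ ∈ W := by
    intro k hk
    show φ (p k - p k₀) = 0
    rw [map_sub, hk, hk₀, sub_self]
  have hℓW : ℓ.domRestrict W ≠ 0 := by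
    intro h0
    have hev2 : ∀ᶠ k in (hF : Filter ℕ), ℓ (p k) = ℓ (p k₀) := by
      refine hev.mono (fun k hk => ?_)
      have h1 := LinearMap.congr_fun h0 ⟨_, hmemW k hk⟩
      simp only [LinearMap.domRestrict_apply, LinearMap.zero_apply, map_sub] at h1
      linarith
    have hne := eventually_ne_of_injective hinj (ℓ (p k₀))
    obtain ⟨k, hk1, hk2⟩ := (hev2.and hne).exists
    exact hk2 hk1
  have hfin := restrict_finite IH hL (p k₀) hW hℓW
  have hmem2 : ∀ᶠ k in (hF : Filter ℕ), ℓ (p k) - ℓ (p k₀) ∈ ℓ '' {y | y ∈ W ∧ g.val (p k₀ + y) = 0} := by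
    refine hev.mono (fun k hk => ?_)
    refine ⟨p k - p k₀, ⟨hmemW k hk, ?_⟩, by rw [map_sub]⟩
    rw [add_sub_cancel]
    exact hp k
  obtain ⟨a, -, ha⟩ := eventually_const_of_finite hfin hmem2
  have hne := eventually_ne_of_injective hinj (a + ℓ (p k₀))
  obtain ⟨k, hk1, hk2⟩ := (ha.and hne).exists
  apply hk2
  show ℓ (p k) = a + ℓ (p k₀)
  linarith

end Vale.Agent.Lib.P027
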